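import Vale.Agent.P281.H303.R.Ref
import Vale.Agent.P281.H498.TZ.PoleZ

/-!
# P281 (helper303): the pull-backs of orbifold tensors at the generic points of a hypersurface
-/

open scoped Manifold ContDiff Topology
open Set Filter Metric Vale.Agent.P281 Vale.Agent.P272.K
open Vale.Agent.P281.MF Vale.Agent.P281.ISO Vale.Agent.P281.ELL Vale.Agent.P281.H713

set_option linter.all false

noncomputable section

namespace Vale.Agent.P281.H303.R

open Vale.Agent.P281.H713.TZ Vale.Agent.P281.H713.SA Vale.Agent.P281.H713.CO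
open Vale.Agent.P281.H498 (tT_coord PoleAt)

variable {n p : ℕ} {Z₁ Z Y : Type} [TopologicalSpace Z] [ChartedSpace (Cm n) Z]
  [IsManifold 𝓘(ℂ, Cm n) ω Z] [TopologicalSpace Z₁] [ChartedSpace (Cm n) Z₁]
  [IsManifold 𝓘(ℂ, Cm n) ω Z₁] [TopologicalSpace Y] [ChartedSpace (Cm p) Y]
  [IsManifold 𝓘(ℂ, Cm p) ω Y]

/-- the differential of `f ∘ u` in coordinates -/
theorem dA_comp {u : Z₁ → Z} (hu : ∀ z, HolM (Cm n) (Cm n) u z) {f : Z → Y}
    (hf : ∀ x, HolM (Cm n) (Cm p) f x) {ξ : Z → Cm n} {c : Z₁ → Cm n} {z : Z₁}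
    (hξ : HolV (Cm n) ξ (u z)) (hξu : IsUnit (dV (Cm n) ξ (u z))) :
    dA n p (fun z => f (u z)) c z = (dA n p f ξ (u z)).comp
      ((dV (Cm n) (fun z => ξ (u z)) z).comp (Ring.inverse (dV (Cm n) c z))) := by
  have h1 : dM (Cm n) (Cm p) (fun z => f (u z)) z =
      (dM (Cm n) (Cm p) f (u z)).comp (dM (Cm n) (Cm n) u z) :=
    mfderiv_comp z ((hf (u z)).mdifferentiableAt (by simp)) ((hu z).mdifferentiableAt (by simp))
  have h2 : dV (Cm n) (fun z => ξ (u z)) z = dV (Cm n) ξ (u z) * dM (Cm n) (Cm n) u z :=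
    dV_comp hξ (hu z)
  have h3 : Ring.inverse (dV (Cm n) ξ (u z)) * dV (Cm n) ξ (u z) = 1 :=
    Ring.inverse_mul_cancel _ hξu
  unfold dA
  rw [h1, h2]
  have h4 : (Ring.inverse (dV (Cm n) ξ (u z))).comp
      ((dV (Cm n) ξ (u z) * dM (Cm n) (Cm n) u z).comp (Ring.inverse (dV (Cm n) c z))) =
      (dM (Cm n) (Cm n) u z).comp (Ring.inverse (dV (Cm n) c z)) := by
    show Ring.inverse (dV (Cm n) ξ (u z)) * (dV (Cm n) ξ (u z) * dM (Cm n) (Cm n) u z *
      Ring.inverse (dV (Cm n) c z)) = _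
    rw [mul_assoc (dV (Cm n) ξ (u z)), ← mul_assoc (Ring.inverse (dV (Cm n) ξ (u z))), h3, one_mul]
    rfl
  rw [ContinuousLinearMap.comp_assoc, ContinuousLinearMap.comp_assoc, h4]

/-- the exponents -/
theorem expo {α : Type} [Fintype α] {ι : α → Fin n} (hι : Function.Injective ι) {t K : α → ℕ}
    {m N : ℕ} (hN : ∀ S : Finset α, S.Nonempty →
      ∑ b ∈ S, t b * K b ≤ m * (∑ b ∈ S, t b - 1) + N) {J κ : Fin p → Fin n}
    (hJ : Function.Injective J) (j₀ : Fin n) {S : Finset α} (hS : ∀ b ∈ S, ∃ c, κ c = ι b) :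
    ∑ b ∈ S, t b * K b ≤
      m * (∑ c, (Function.extend ι t 0 (κ c) - if J c = j₀ then 1 else 0)) + N := by
  classical
  rcases S.eq_empty_or_nonempty with h0 | h0
  · rw [h0, Finset.sum_empty]
    exact Nat.zero_le _
  refine (hN S h0).trans (Nat.add_le_add_right (Nat.mul_le_mul_left _ ?_) _)
  have hch : ∀ b, ∃ c : Fin p, b ∈ S → κ c = ι b := by
    intro b
    by_cases hb : b ∈ S
    · obtain ⟨c, hc⟩ := hS b hb
      exact ⟨c, fun _ => hc⟩
    · obtain ⟨b', hb'⟩ := h0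
      obtain ⟨c, -⟩ := hS b' hb'
      exact ⟨c, fun h => absurd h hb⟩
  choose c hc using hch
  have hinj : Set.InjOn c S := by
    intro b hb b' hb' h
    apply hι
    rw [← hc b hb, ← hc b' hb', h]
  have h1 : ∑ b ∈ S, t b ≤ ∑ c, Function.extend ι t 0 (κ c) := by
    calc ∑ b ∈ S, t b = ∑ b ∈ S, Function.extend ι t 0 (κ (c b)) := by
          refine Finset.sum_congr rfl fun b hb => ?_
          rw [hc b hb, hι.extend_apply]
      _ = ∑ c' ∈ S.image c, Function.extend ι t 0 (κ c') :=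
          (Finset.sum_image (f := fun c' => Function.extend ι t 0 (κ c')) hinj).symm
      _ ≤ ∑ c, Function.extend ι t 0 (κ c) :=
          Finset.sum_le_sum_of_subset (Finset.subset_univ _)
  have h2 : ∑ c, Function.extend ι t 0 (κ c) ≤
      ∑ c, (Function.extend ι t 0 (κ c) - if J c = j₀ then 1 else 0) +
        ∑ c, (if J c = j₀ then 1 else 0) := by
    rw [← Finset.sum_add_distrib]
    refine Finset.sum_le_sum fun c _ => ?_
    omega
  have h3 : ∑ c, (if J c = j₀ then 1 else 0) ≤ 1 := by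
    rw [Finset.sum_boole]
    simp only [Nat.cast_id]
    refine Finset.card_le_one.2 fun c hc c' hc' => hJ ?_
    rw [(Finset.mem_filter.1 hc).2, (Finset.mem_filter.1 hc').2]
  omega

theorem bd_pull {u : Z₁ → Z} (hu : ∀ z, HolM (Cm n) (Cm n) u z) {f : Z → Y}
    (hf : ∀ x, HolM (Cm n) (Cm p) f x) {y : Z₁} {e : Z₁ → ℂ} (he : HolV (Cm n) e y)
    (he0 : e y = 0) (hde : dif (Cm n) e y ≠ 0) {α : Type} [Fintype α] {ξ : Z → Cm n}
    (hξ : HolV (Cm n) ξ (u y)) (hξu : IsUnit (dV (Cm n) ξ (u y))) {ι : α → Fin n}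
    (hι : Function.Injective ι) {g : α → Z → ℂ} (hgξ : ∀ b x, ξ x (ι b) = g b x) {t : α → ℕ}
    (ht : ∀ b, 0 < t b) {w : α → Z₁ → ℂ} (hw : ∀ b, HolV (Cm n) (w b) y)
    (hw0 : ∀ b, w b y ≠ 0) (hge : ∀ b, ∀ᶠ z in 𝓝 y, g b (u z) = e z ^ t b * w b z)
    {K : α → ℕ} {m N : ℕ} (hm : 0 < m) (hN : ∀ S : Finset α, S.Nonempty →
      ∑ b ∈ S, t b * K b ≤ m * (∑ b ∈ S, t b - 1) + N) {P : Z → Prop} {s : Z → ℂ}
    (hC : ∀ κ : Fin p → Fin n, ∃ C : ℝ, ∀ᶠ x in 𝓝 (u y), P x →
      ‖s x‖ * ‖(mK (dA n p f ξ x) κ).det‖ ^ m *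
        ∏ b ∈ Finset.univ.filter (fun b => ∃ c, κ c = ι b), ‖g b x‖ ^ K b ≤ C)
    {c : Z₁ → Cm n} (hc : HolV (Cm n) c y) (hcu : IsUnit (dV (Cm n) c y))
    (I : Fin (m * p) → Fin n) :
    ∃ C : ℝ, ∀ᶠ z in 𝓝 y, e z ≠ 0 → P (u z) →
      ‖s (u z)‖ * ‖tT (fun z => f (u z)) m c I z‖ * ‖e z‖ ^ N ≤ C := by
  classical
  have hfu : ∀ z, HolM (Cm n) (Cm p) (fun z => f (u z)) z := fun z =>
    ContMDiffAt.comp z (hf (u z)) (hu z)
  -- adapted coordinates
  obtain ⟨ι', c', -, hc', hcu', hce⟩ := adapt (α := Unit) (g := fun _ => e) (fun _ => he) (by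
    intro v
    have h1 : ∃ ξ, dif (Cm n) e y ξ ≠ 0 := by
      by_contra hcon
      push Not at hcon
      exact hde (ContinuousLinearMap.ext fun v => hcon v)
    obtain ⟨ξ', hξ'⟩ := h1
    refine ⟨(v () / dif (Cm n) e y ξ') • ξ', ?_⟩
    funext a
    show dif (Cm n) e y ((v () / dif (Cm n) e y ξ') • ξ') = v a
    rw [map_smul, smul_eq_mul, div_mul_cancel₀ _ hξ'])
  set j₀ := ι' () with hj₀
  have hce' : ∀ z, c' z j₀ = e z := fun z => hce () z
  set U : Z₁ → (Cm n →L[ℂ] Cm n) := fun z =>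
    (dV (Cm n) (fun z => ξ (u z)) z).comp (Ring.inverse (dV (Cm n) c' z)) with hU
  have hξuh : HolV (Cm n) (fun z => ξ (u z)) y := HolV.comp (h := ξ) hξ (hu y)
  have hUh : HolV (Cm n) U y := holV_quot hξuh hc' hcu'
  set t' : Fin n → ℕ := Function.extend ι t 0 with ht'
  -- the entries
  have hent : ∀ i j, ∃ R : ℝ, 0 ≤ R ∧ ∀ᶠ z in 𝓝 y, ‖U z (Pi.single j 1) i‖ ≤
      R * ‖e z‖ ^ (t' i - if j = j₀ then 1 else 0) := by
    intro i j
    by_cases hi : ∃ b, ι b = i
    · obtain ⟨b, rfl⟩ := hi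
      have htb : t' (ι b) = t b := hι.extend_apply _ _ _
      set Rw : Z₁ → (Cm n →L[ℂ] ℂ) := fun z =>
        (dV (Cm n) (w b) z).comp (Ring.inverse (dV (Cm n) c' z)) with hRw
      have hRwh : HolV (Cm n) Rw y := holV_quot (hw b) hc' hcu'
      have hkey : ∀ᶠ z in 𝓝 y, ∀ v, U z v (ι b) =
          e z ^ (t b - 1) * (t b * w b z * v j₀ + e z * Rw z v) := by
        filter_upwards [he.eventually, (hw b).eventually, (hge b).eventually_nhds,
          hξuh.eventually, unit_nhds hc' hcu'] with z h1 h2 h3 h4 h5 v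
        have h6 : U z v (ι b) = dV (Cm n) (fun z => g b (u z)) z
            (Ring.inverse (dV (Cm n) c' z) v) := by
          show dV (Cm n) (fun z => ξ (u z)) z (Ring.inverse (dV (Cm n) c' z) v) (ι b) = _
          rw [X.dV_comp_i h4]
          simp only [hgξ]
        have h7 : dV (Cm n) (fun z => g b (u z)) z = dV (Cm n) (fun z => e z ^ t b * w b z) z :=
          Filter.EventuallyEq.mfderiv_eq h3
        have h8 := dV_pow_mul h1 h2 (ht b)
        have h10 : dV (Cm n) e z (Ring.inverse (dV (Cm n) c' z) v) = v j₀ := by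
          have h11 : e = fun x => c' x j₀ := funext fun x => (hce' x).symm
          rw [h11, ← X.dV_comp_i h5.1]
          have h12 : dV (Cm n) c' z * Ring.inverse (dV (Cm n) c' z) = 1 :=
            Ring.mul_inverse_cancel _ h5.2.1
          have h13 := congrArg (fun T : Cm n →L[ℂ] Cm n => T v j₀) h12
          exact h13
        have h9 := congrArg (fun T : Cm n →L[ℂ] ℂ => T (Ring.inverse (dV (Cm n) c' z) v))
          (h7.trans h8)
        simp only [ContinuousLinearMap.comp_apply, ContinuousLinearMap.smul_apply,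
          ContinuousLinearMap.add_apply, smul_eq_mul] at h9
        rw [h10] at h9
        rw [h6]
        exact h9
      rw [htb]
      by_cases hj : j = j₀
      · rw [if_pos hj]
        have h1 : ContinuousAt (fun z => t b * w b z + e z * Rw z (Pi.single j 1)) y :=
          (continuousAt_const.mul (hw b).continuousAt).add
            (he.continuousAt.mul (X.holV_app hRwh _).continuousAt)
        refine ⟨‖t b * w b y + e y * Rw y (Pi.single j 1)‖ + 1, by positivity, ?_⟩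
        filter_upwards [hkey, bdd_of_cont h1] with z h2 h3
        rw [h2, hj, Pi.single_eq_same, mul_one, norm_mul, norm_pow, mul_comm]
        rw [hj] at h3
        exact mul_le_mul_of_nonneg_right h3 (by positivity)
      · rw [if_neg hj, Nat.sub_zero]
        have h1 : ContinuousAt (fun z => Rw z (Pi.single j 1)) y := (X.holV_app hRwh _).continuousAt
        refine ⟨‖Rw y (Pi.single j 1)‖ + 1, by positivity, ?_⟩
        filter_upwards [hkey, bdd_of_cont h1] with z h2 h3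
        have h4 : (Pi.single j 1 : Cm n) j₀ = 0 := Pi.single_eq_of_ne (Ne.symm hj) _
        have h5 : e z ^ t b = e z ^ (t b - 1) * e z := by
          rw [← pow_succ, Nat.sub_add_cancel (ht b)]
        rw [h2, h4, mul_zero, zero_add, ← mul_assoc, ← h5, norm_mul, norm_pow, mul_comm]
        exact mul_le_mul_of_nonneg_right h3 (by positivity)
    · have hti : t' i = 0 := Function.extend_apply' _ _ _ hi
      have h1 : ContinuousAt (fun z => U z (Pi.single j 1) i) y :=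
        (X.holV_appi hUh _ i).continuousAt
      refine ⟨‖U y (Pi.single j 1) i‖ + 1, by positivity, ?_⟩
      filter_upwards [bdd_of_cont h1] with z h2
      rw [hti, Nat.zero_sub, pow_zero, mul_one]
      exact h2
  choose R hR0 hR using hent
  have hcomp : ∀ᶠ z in 𝓝 y, dA n p (fun z => f (u z)) c' z = (dA n p f ξ (u z)).comp (U z) := by
    filter_upwards [(hu y).continuousAt.eventually (unit_nhds hξ hξu)] with z hz
    exact dA_comp hu hf hz.1 hz.2.1
  have he1 : ∀ᶠ z in 𝓝 y, ‖e z‖ < 1 := by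
    have h2 : ‖e y‖ < 1 := by rw [he0, norm_zero]; exact one_pos
    exact he.continuousAt.norm.eventually_lt_const h2
  -- the minors
  have hJ : ∀ J : Fin p → Fin n, ∃ C : ℝ, ∀ᶠ z in 𝓝 y, e z ≠ 0 → P (u z) →
      ‖s (u z)‖ * ‖(mK (dA n p (fun z => f (u z)) c' z) J).det‖ ^ m * ‖e z‖ ^ N ≤ C := by
    intro J
    by_cases hinj : Function.Injective J
    swap
    · refine ⟨0, Eventually.of_forall fun z _ _ => ?_⟩
      simp only [Function.Injective, not_forall] at hinj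
      obtain ⟨a, b, hab, hne⟩ := hinj
      have h1 : (mK (dA n p (fun z => f (u z)) c' z) J).det = 0 := by
        refine Matrix.det_zero_of_column_eq hne fun i => ?_
        simp only [mK, Matrix.of_apply, hab]
      rw [h1, norm_zero, zero_pow hm.ne', mul_zero, zero_mul]
    have hκ : ∀ κ : Fin p → Fin n, ∃ C : ℝ, ∀ᶠ z in 𝓝 y, e z ≠ 0 → P (u z) →
        ‖s (u z)‖ * (‖∏ a, U z (Pi.single (J a) 1) (κ a)‖ *
          ‖(mK (dA n p f ξ (u z)) κ).det‖) ^ m * ‖e z‖ ^ N ≤ C := by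
      intro κ
      obtain ⟨C, hC⟩ := hC κ
      set S : Finset α := Finset.univ.filter (fun b => ∃ c, κ c = ι b) with hS
      set E : ℕ := ∑ a, (t' (κ a) - if J a = j₀ then 1 else 0) with hE
      have hexp : ∑ b ∈ S, t b * K b ≤ m * E + N :=
        expo hι hN hinj j₀ fun b hb => (Finset.mem_filter.1 hb).2
      have hWc : ContinuousAt (fun z => ∏ b ∈ S, w b z ^ K b) y :=
        (HolV.prod fun b _ => (hw b).pow _ :
          HolV (Cm n) (fun z => ∏ b ∈ S, w b z ^ K b) y).continuousAt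
      have hW0 : ∏ b ∈ S, w b y ^ K b ≠ 0 := Finset.prod_ne_zero_iff.2 fun b _ =>
        pow_ne_zero _ (hw0 b)
      have hWn : ∀ᶠ z in 𝓝 y, ‖∏ b ∈ S, w b y ^ K b‖ / 2 < ‖∏ b ∈ S, w b z ^ K b‖ :=
        hWc.norm.eventually_const_lt (half_lt_self (norm_pos_iff.2 hW0))
      have hpos : 0 < ‖∏ b ∈ S, w b y ^ K b‖ / 2 := by
        have := norm_pos_iff.2 hW0
        positivity
      set R' : ℝ := ∏ a, R (κ a) (J a) with hR'
      have hR'0 : 0 ≤ R' := Finset.prod_nonneg fun a _ => hR0 _ _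
      refine ⟨R' ^ m * (|C| / (‖∏ b ∈ S, w b y ^ K b‖ / 2)), ?_⟩
      filter_upwards [eventually_all.2 fun i => eventually_all.2 fun j => hR i j,
        (hu y).continuousAt.eventually hC, hWn, eventually_all.2 hge, he1]
        with z h1 h2 h3 h4 h5 h6 h7
      have h8 : ‖∏ a, U z (Pi.single (J a) 1) (κ a)‖ ≤ R' * ‖e z‖ ^ E := by
        rw [norm_prod, hR', hE, ← Finset.prod_pow_eq_pow_sum, ← Finset.prod_mul_distrib]
        exact Finset.prod_le_prod (fun a _ => norm_nonneg _) fun a _ => h1 (κ a) (J a)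
      have h9 : ∏ b ∈ S, ‖g b (u z)‖ ^ K b = ‖e z‖ ^ (∑ b ∈ S, t b * K b) *
          ‖∏ b ∈ S, w b z ^ K b‖ := by
        rw [← Finset.prod_pow_eq_pow_sum, norm_prod, ← Finset.prod_mul_distrib]
        refine Finset.prod_congr rfl fun b _ => ?_
        rw [h4 b, norm_mul, mul_pow, norm_pow, norm_pow, pow_mul]
      have h10 := h2 h7
      rw [h9] at h10
      have h11 : ‖s (u z)‖ * ‖(mK (dA n p f ξ (u z)) κ).det‖ ^ m *
          ‖e z‖ ^ (∑ b ∈ S, t b * K b) ≤ |C| / (‖∏ b ∈ S, w b y ^ K b‖ / 2) := by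
        rw [le_div_iff₀ hpos]
        refine le_trans (mul_le_mul_of_nonneg_left h3.le (by positivity)) ?_
        refine le_trans (le_of_eq ?_) (h10.trans (le_abs_self C))
        ring
      calc ‖s (u z)‖ * (‖∏ a, U z (Pi.single (J a) 1) (κ a)‖ *
            ‖(mK (dA n p f ξ (u z)) κ).det‖) ^ m * ‖e z‖ ^ N
          ≤ ‖s (u z)‖ * (R' * ‖e z‖ ^ E * ‖(mK (dA n p f ξ (u z)) κ).det‖) ^ m *
            ‖e z‖ ^ N := by
            gcongr
        _ = R' ^ m * (‖s (u z)‖ * ‖(mK (dA n p f ξ (u z)) κ).det‖ ^ m *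
            ‖e z‖ ^ (m * E + N)) := by
            rw [mul_pow, mul_pow, pow_add, ← pow_mul, mul_comm E m]
            ring
        _ ≤ R' ^ m * (‖s (u z)‖ * ‖(mK (dA n p f ξ (u z)) κ).det‖ ^ m *
            ‖e z‖ ^ (∑ b ∈ S, t b * K b)) := by
            refine mul_le_mul_of_nonneg_left (mul_le_mul_of_nonneg_left ?_ (by positivity))
              (by positivity)
            exact pow_le_pow_of_le_one (norm_nonneg _) h5.le hexp
        _ ≤ R' ^ m * (|C| / (‖∏ b ∈ S, w b y ^ K b‖ / 2)) :=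
            mul_le_mul_of_nonneg_left h11 (by positivity)
    choose C hCκ using hκ
    refine ⟨(Fintype.card (Fin p → Fin n) : ℝ) ^ m * ∑ κ, C κ, ?_⟩
    filter_upwards [eventually_all.2 hCκ, hcomp] with z h1 h2 h3 h4
    have h5 : ‖(mK (dA n p (fun z => f (u z)) c' z) J).det‖ ≤
        ∑ κ : Fin p → Fin n, ‖∏ a, U z (Pi.single (J a) 1) (κ a)‖ *
          ‖(mK (dA n p f ξ (u z)) κ).det‖ := by
      rw [h2, det_mK_comp_right]
      refine (norm_sum_le _ _).trans (le_of_eq ?_)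
      simp only [norm_mul]
    have h6 : ‖(mK (dA n p (fun z => f (u z)) c' z) J).det‖ ^ m ≤
        (Fintype.card (Fin p → Fin n) : ℝ) ^ m *
          ∑ κ : Fin p → Fin n, (‖∏ a, U z (Pi.single (J a) 1) (κ a)‖ *
            ‖(mK (dA n p f ξ (u z)) κ).det‖) ^ m := by
      refine (pow_le_pow_left₀ (norm_nonneg _) h5 m).trans ?_
      rcases sum_pow_le (fun κ : Fin p → Fin n => ‖∏ a, U z (Pi.single (J a) 1) (κ a)‖ *
          ‖(mK (dA n p f ξ (u z)) κ).det‖) (fun κ => by positivity) m with h7 | h7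
      · exact h7
      · exact absurd h7 (not_isEmpty_iff.2 ⟨J⟩)
    calc ‖s (u z)‖ * ‖(mK (dA n p (fun z => f (u z)) c' z) J).det‖ ^ m * ‖e z‖ ^ N
        ≤ ‖s (u z)‖ * ((Fintype.card (Fin p → Fin n) : ℝ) ^ m *
          ∑ κ : Fin p → Fin n, (‖∏ a, U z (Pi.single (J a) 1) (κ a)‖ *
            ‖(mK (dA n p f ξ (u z)) κ).det‖) ^ m) * ‖e z‖ ^ N := by
          gcongr
      _ = (Fintype.card (Fin p → Fin n) : ℝ) ^ m * ∑ κ : Fin p → Fin n,
          (‖s (u z)‖ * (‖∏ a, U z (Pi.single (J a) 1) (κ a)‖ *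
            ‖(mK (dA n p f ξ (u z)) κ).det‖) ^ m * ‖e z‖ ^ N) := by
          rw [Finset.mul_sum, Finset.mul_sum, Finset.sum_mul, Finset.mul_sum]
          refine Finset.sum_congr rfl fun κ _ => ?_
          ring
      _ ≤ (Fintype.card (Fin p → Fin n) : ℝ) ^ m * ∑ κ, C κ :=
          mul_le_mul_of_nonneg_left (Finset.sum_le_sum fun κ _ => h1 κ h3 h4) (by positivity)
  -- the tensor
  have hT : ∀ L : Fin (m * p) → Fin n, ∃ C : ℝ, ∀ᶠ z in 𝓝 y, e z ≠ 0 → P (u z) →
      ‖s (u z)‖ * ‖tT (fun z => f (u z)) m c' L z‖ * ‖e z‖ ^ N ≤ C := by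
    intro L
    choose C hC using fun r : Fin m => hJ fun a => L (finProdFinEquiv (r, a))
    refine ⟨1 + |∏ r, (|C r|)|, ?_⟩
    filter_upwards [eventually_all.2 hC] with z h1 h2 h3
    refine le_of_pow_le' hm ?_
    have h4 : ‖tT (fun z => f (u z)) m c' L z‖ =
        ∏ r : Fin m, ‖(mK (dA n p (fun z => f (u z)) c' z)
          fun a => L (finProdFinEquiv (r, a))).det‖ := by
      unfold tT tq
      rw [norm_prod]
      rfl
    calc (‖s (u z)‖ * ‖tT (fun z => f (u z)) m c' L z‖ * ‖e z‖ ^ N) ^ m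
        = ∏ r : Fin m, (‖s (u z)‖ * ‖(mK (dA n p (fun z => f (u z)) c' z)
          fun a => L (finProdFinEquiv (r, a))).det‖ ^ m * ‖e z‖ ^ N) := by
          rw [h4, Finset.prod_mul_distrib, Finset.prod_mul_distrib, Finset.prod_const,
            Finset.prod_const, Finset.card_univ, Fintype.card_fin, Finset.prod_pow, mul_pow,
            mul_pow]
      _ ≤ ∏ r, (|C r|) := Finset.prod_le_prod (fun r _ => by positivity) fun r _ =>
          (h1 r h2 h3).trans (le_abs_self _)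
  choose C hCL using hT
  have hco : ∀ L : Fin (m * p) → Fin n, ∃ B : ℝ, 0 ≤ B ∧ ∀ᶠ z in 𝓝 y,
      ‖∏ a, ((dV (Cm n) c' z).comp (Ring.inverse (dV (Cm n) c z))) (Pi.single (I a) 1) (L a)‖ ≤
        B := by
    intro L
    have h1 : HolV (Cm n) (fun z => ∏ a, ((dV (Cm n) c' z).comp (Ring.inverse (dV (Cm n) c z)))
        (Pi.single (I a) 1) (L a)) y := HolV.prod fun a _ =>
      X.holV_appi (holV_quot hc' hc hcu) (Pi.single (I a) 1) (L a)
    refine ⟨‖∏ a, ((dV (Cm n) c' y).comp (Ring.inverse (dV (Cm n) c y))) (Pi.single (I a) 1)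
      (L a)‖ + 1, by positivity, bdd_of_cont h1.continuousAt⟩
  choose B hB0 hB using hco
  refine ⟨∑ L, B L * |C L|, ?_⟩
  filter_upwards [eventually_all.2 hCL, eventually_all.2 hB, unit_nhds hc' hcu']
    with z h1 h2 h3 h4 h5
  rw [tT_coord m (c := c) (c' := c') h3.2.1 I]
  calc ‖s (u z)‖ * ‖∑ L : Fin (m * p) → Fin n, (∏ a, ((dV (Cm n) c' z).comp
        (Ring.inverse (dV (Cm n) c z))) (Pi.single (I a) 1) (L a)) *
          tT (fun z => f (u z)) m c' L z‖ * ‖e z‖ ^ N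
      ≤ ‖s (u z)‖ * (∑ L : Fin (m * p) → Fin n, B L *
          ‖tT (fun z => f (u z)) m c' L z‖) * ‖e z‖ ^ N := by
        refine mul_le_mul_of_nonneg_right (mul_le_mul_of_nonneg_left ?_ (norm_nonneg _))
          (by positivity)
        refine (norm_sum_le _ _).trans (Finset.sum_le_sum fun L _ => ?_)
        rw [norm_mul]
        exact mul_le_mul_of_nonneg_right (h2 L) (norm_nonneg _)
    _ = ∑ L, B L * (‖s (u z)‖ * ‖tT (fun z => f (u z)) m c' L z‖ * ‖e z‖ ^ N) := by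
        rw [Finset.mul_sum, Finset.sum_mul]
        refine Finset.sum_congr rfl fun L _ => ?_
        ring
    _ ≤ ∑ L, B L * |C L| := Finset.sum_le_sum fun L _ =>
        mul_le_mul_of_nonneg_left ((h1 L h4 h5).trans (le_abs_self _)) (hB0 L)

end Vale.Agent.P281.H303.R
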