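import Vale.Agent.P281.H303.R.Ten
import Vale.Agent.P281.H383.TD.PF4
import Vale.Agent.P281.H303.TE.Step
import Vale.Agent.P281.H949.TL.Thin
import Vale.Agent.P281.H364.Gen.Neat

/-!
# P281 (helper303): `kodF f Δ ≤ kodF (f ∘ u) Δ₁` for an orbifold modification `u`
-/

open scoped Manifold ContDiff Topology
open Set Filter Metric Vale.Agent.P281 Vale.Agent.P272.K
open Vale.Agent.P281.MF Vale.Agent.P281.ISO Vale.Agent.P281.ELL Vale.Agent.P281.H713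

set_option linter.all false

noncomputable section

namespace Vale.Agent.P281.H303.R

open Vale.Agent.P281.H713.TZ Vale.Agent.P281.H713.SA Vale.Agent.P281.H713.CO
open Vale.Agent.P281.H498 (tT_coord PoleAt)

section

variable {n p : ℕ} {X₁ X Y : Type} [TopologicalSpace X] [ChartedSpace (Cm n) X]
  [IsManifold 𝓘(ℂ, Cm n) ω X] [TopologicalSpace X₁] [ChartedSpace (Cm n) X₁]
  [IsManifold 𝓘(ℂ, Cm n) ω X₁] [TopologicalSpace Y] [ChartedSpace (Cm p) Y]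
  [IsManifold 𝓘(ℂ, Cm p) ω Y]

theorem pull_section [T2Space X] {u : X₁ → X} (hu : ∀ z, HolM (Cm n) (Cm n) u z) {f : X → Y}
    (hf : ∀ x, HolM (Cm n) (Cm p) f x) {𝒢 : Set (Set Y)} (h𝒢f : 𝒢.Finite)
    (h𝒢p : ∀ G ∈ 𝒢, IsPrimeDivisor (Cm p) G) {m : ℕ} (hm : 0 < m) {σ : Y → ℂ}
    {Δ : Set X → ℝ} (hΔ : J.IsSNC (Cm n) Δ) {Δ₁ : Set X₁ → ℝ} (hΔ₁ : J.IsSNC (Cm n) Δ₁)
    (hor : IsOrbMor (Cm n) (Cm n) u Δ₁ Δ) {K : Set X → ℕ} (hK : ∀ D, (K D : ℝ) ≤ m * Δ D)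
    (hd : Dense {x | (∀ G ∈ 𝒢, f x ∉ G) ∧ ∀ D, Δ D ≠ 0 → x ∉ D})
    (hd₁ : Dense {z | (∀ G ∈ 𝒢, f (u z) ∉ G) ∧ ∀ D, Δ D ≠ 0 → u z ∉ D})
    (h : TL.IsPullSection (n := n) (p := p) m K 𝒢 (id : X → X) f σ) :
    TL.IsPullSection (n := n) (p := p) m (fun D => ⌊(m : ℝ) * Δ₁ D⌋₊) 𝒢 (id : X₁ → X₁)
      (fun z => f (u z)) σ := by
  classical
  obtain ⟨k, hk, hσ⟩ := h.mero
  refine ⟨⟨k, hk, hσ⟩, fun x => ?_⟩
  set T := hΔ₁.1.toFinset with hT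
  have hTm : ∀ D, D ∈ T ↔ Δ₁ D ≠ 0 := fun D => Set.Finite.mem_toFinset _
  have hch : ∀ D, ∃ g : X₁ → ℂ, D ∈ T → IsLocalEq (Cm n) D g x := by
    intro D
    by_cases hDT : D ∈ T
    · obtain ⟨g, hg⟩ := (hΔ₁.2.1 D ((hTm D).1 hDT)).2.1 x
      exact ⟨g, fun _ => hg⟩
    · exact ⟨0, fun h => absurd h hDT⟩
  choose g hg using hch
  refine ⟨T, g, fun D hD => (hTm D).2 fun h0 => hD ?_, hg, fun I => ?_⟩
  · show ⌊(m : ℝ) * Δ₁ D⌋₊ = 0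
    rw [h0, mul_zero, Nat.floor_zero]
  · obtain ⟨Q, hQ, hQe⟩ := tens_pull H413.TZ.genPart hu hf h𝒢f h𝒢p hm hk hσ hΔ hΔ₁ hor hK hd hd₁
      (H383.TD.poleAt_of h) (c := fun w => (chartAt (Cm n) x : X₁ → Cm n) w) (z₀ := x)
      (HolV.chart (mem_chart_source _ _)) (isUnit_dV_chart (E := Cm n) (mem_chart_source _ _))
      (fun t => I (finProdFinEquiv.symm t).1 (finProdFinEquiv.symm t).2) hg
    refine ⟨Q, hQ, ?_⟩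
    filter_upwards [hQe] with y h1 z hz hzG _
    have hz' : z = y := hz
    subst hz'
    rw [H383.TD.minors_eq_tT]
    exact h1 hzG

end

/-- **`kodF f Δ ≤ kodF (f ∘ u) Δ₁`** -/
theorem kodF_pull {n p : ℕ} {X X₁ Y : Type} [TopologicalSpace X] [ChartedSpace (Cm n) X]
    [TopologicalSpace X₁] [ChartedSpace (Cm n) X₁] [TopologicalSpace Y] [ChartedSpace (Cm p) Y]
    {f : X → Y} {Δ : Set X → ℝ} {u : X₁ → X} {Δ₁ : Set X₁ → ℝ}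
    (h : H511.Surf.IsFibration (Cm n) (Cm p) f Δ)
    (h₁ : H511.Surf.IsFibration (Cm n) (Cm p) (fun z => f (u z)) Δ₁)
    (hu : TZ.S.IsModif (Cm n) u) (hor : TZ.S.OrbMor (Cm n) (Cm n) u Δ₁ Δ) :
    TZ.S.kodF n p Δ (id : X → X) f ≤ TZ.S.kodF n p Δ₁ (id : X₁ → X₁) (fun z => f (u z)) := by
  classical
  obtain ⟨⟨_, _⟩, _, _, ⟨_, _⟩, hf, hc, hΔ⟩ := h
  obtain ⟨⟨_, _⟩, _, _, ⟨_, _⟩, hf₁, hc₁, hΔ₁⟩ := h₁
  have hMu := H349.NF.mod_modif H737.Gen.exc hu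
  have hN := H737.Gen.exc n X X₁ u hu
  have hsub := H364.Gen.exists_submersive (H364.crit H150.Gen.img) H383.Gen.compl hf hc
  have hsub₁ := H364.Gen.exists_submersive (H364.crit H150.Gen.img) H383.Gen.compl hf₁ hc₁
  have hsubu : ∃ z, Function.Surjective (mfderiv 𝓘(ℂ, Cm n) 𝓘(ℂ, Cm n) u z) := by
    obtain ⟨x, hx⟩ := (H383.Gen.dense_compl_small (H308.Bir.small_of_small2 hN)).nonempty
    obtain ⟨z, rfl⟩ := hMu.surj x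
    exact ⟨z, (hMu.exc z hx).2⟩
  have huc : ContMDiff 𝓘(ℂ, Cm n) 𝓘(ℂ, Cm n) ω u := hu.2.1
  rw [TZ.S.kodF_eq, TZ.S.kodF_eq]
  unfold TL.kodF
  refine iSup₂_le fun l hl => ?_
  obtain ⟨m, K, 𝒢, σ, y, hm, hK, h𝒢f, h𝒢p, hpull, hy, h0, hsurj⟩ := hl
  have hcl𝒢 : IsClosed (⋃₀ 𝒢) := by
    rw [sUnion_eq_biUnion]
    exact h𝒢f.isClosed_biUnion fun G hG => (h𝒢p G hG).1
  have hclΔ : IsClosed (⋃₀ {D | Δ D ≠ 0}) := by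
    rw [sUnion_eq_biUnion]
    exact hΔ.1.isClosed_biUnion fun D hD => (hΔ.2.1 D hD).1
  have hd1 := H949.TL.dense_of_sub hf hsub h𝒢f h𝒢p
  have hd2 := H949.TL.dense_of_sub (f := (id : X → X)) contMDiff_id
    (by
      obtain ⟨x⟩ := (inferInstance : Nonempty X)
      refine ⟨x, ?_⟩
      rw [mfderiv_id]
      exact Function.surjective_id) hΔ.1 (fun D hD => hΔ.2.1 D hD)
  have hd3 := H949.TL.dense_of_sub hf₁ hsub₁ h𝒢f h𝒢p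
  have hd4 := H949.TL.dense_of_sub huc hsubu hΔ.1 (fun D hD => hΔ.2.1 D hD)
  have hd : Dense {x | (∀ G ∈ 𝒢, f x ∉ G) ∧ ∀ D, Δ D ≠ 0 → x ∉ D} := by
    refine (hd1.inter_of_isOpen_right hd2 (hclΔ.isOpen_compl)).mono ?_
    rintro x ⟨hx1, hx2⟩
    exact ⟨fun G hG h => hx1 ⟨G, hG, h⟩, fun D hD h => hx2 ⟨D, hD, h⟩⟩
  have hd₁ : Dense {z | (∀ G ∈ 𝒢, f (u z) ∉ G) ∧ ∀ D, Δ D ≠ 0 → u z ∉ D} := by
    refine (hd3.inter_of_isOpen_right hd4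
      (hclΔ.isOpen_compl.preimage huc.continuous)).mono ?_
    rintro x ⟨hx1, hx2⟩
    exact ⟨fun G hG h => hx1 ⟨G, hG, h⟩, fun D hD h => hx2 ⟨D, hD, h⟩⟩
  have hΔ₁0 : ∀ D, 0 ≤ Δ₁ D := fun D => by
    obtain ⟨q, hq, h0, -⟩ := hΔ₁.2.2.1 D
    rw [hq]
    exact_mod_cast h0
  exact le_iSup₂_of_le l ⟨m, fun D => ⌊(m : ℝ) * Δ₁ D⌋₊, 𝒢, σ, y, hm,
    fun D => Nat.floor_le (mul_nonneg (Nat.cast_nonneg _) (hΔ₁0 D)), h𝒢f, h𝒢p,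
    fun b => pull_section (fun z => huc z) (fun x => hf x) h𝒢f (fun G hG => h𝒢p G hG) hm hΔ hΔ₁
      hor hK hd hd₁ (hpull b), hy, h0, hsurj⟩ le_rfl

end Vale.Agent.P281.H303.R
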