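import Vale.Agent.P281.H303.X.Opn

/-!
# P281 (helper303): pull-backs of orbifold tensors; linear algebra and adapted coordinates
-/

open scoped Manifold ContDiff Topology
open Set Filter Metric Vale.Agent.P281 Vale.Agent.P272.K
open Vale.Agent.P281.MF Vale.Agent.P281.ISO Vale.Agent.P281.ELL Vale.Agent.P281.H713

set_option linter.all false

noncomputable section

namespace Vale.Agent.P281.H303.R

open Vale.Agent.P281.H713.TZ Vale.Agent.P281.H713.SA Vale.Agent.P281.H713.CO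

/-- Cramer's rule -/
theorem cramer_id {n p : ℕ} (A : Cm n →L[ℂ] Cm p) (l : Cm p →L[ℂ] ℂ) (κ : Fin p → Fin n)
    (i₀ : Fin n) : (mK A κ).det * l (A (Pi.single i₀ 1)) =
      ∑ b, (mK A (Function.update κ b i₀)).det * l (A (Pi.single (κ b) 1)) := by
  classical
  set v : Cm p := A (Pi.single i₀ 1) with hv
  have h1 := Matrix.mulVec_cramer (mK A κ) v
  have h2 : ∀ b, (mK A κ).cramer v b = (mK A (Function.update κ b i₀)).det := by
    intro b
    rw [Matrix.cramer_apply]
    congr 1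
    ext a c
    by_cases h : c = b
    · subst h
      simp [Matrix.updateCol_self, mK, hv]
    · rw [Matrix.updateCol_ne h]
      simp [mK, Function.update_of_ne h]
  have h3 : ∑ b, (mK A κ).cramer v b • A (Pi.single (κ b) 1) = (mK A κ).det • v := by
    rw [← h1]
    funext a
    rw [Finset.sum_apply]
    simp only [Matrix.mulVec, dotProduct, mK, Matrix.of_apply, Pi.smul_apply, smul_eq_mul]
    refine Finset.sum_congr rfl fun b _ => mul_comm _ _
  have h4 := congrArg l h3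
  rw [map_sum] at h4
  simp only [map_smul, smul_eq_mul, h2] at h4
  exact h4.symm

theorem sum_pow_le {ι : Type} [Fintype ι] (a : ι → ℝ) (ha : ∀ i, 0 ≤ a i) (m : ℕ) :
    (∑ i, a i) ^ m ≤ (Fintype.card ι : ℝ) ^ m * ∑ i, a i ^ m ∨ IsEmpty ι := by
  classical
  by_cases h : Nonempty ι
  · left
    obtain ⟨i₀, -, hi₀⟩ := Finset.exists_max_image Finset.univ a Finset.univ_nonempty
    have h1 : ∑ i, a i ≤ Fintype.card ι * a i₀ := by
      calc ∑ i, a i ≤ ∑ i : ι, a i₀ := Finset.sum_le_sum fun i hi => hi₀ i hi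
        _ = Fintype.card ι * a i₀ := by simp
    calc (∑ i, a i) ^ m ≤ (Fintype.card ι * a i₀) ^ m :=
          pow_le_pow_left₀ (Finset.sum_nonneg fun i _ => ha i) h1 m
      _ = (Fintype.card ι : ℝ) ^ m * a i₀ ^ m := mul_pow _ _ _
      _ ≤ (Fintype.card ι : ℝ) ^ m * ∑ i, a i ^ m := by
          refine mul_le_mul_of_nonneg_left ?_ (by positivity)
          exact Finset.single_le_sum (f := fun i => a i ^ m) (fun i _ => pow_nonneg (ha i) m)
            (Finset.mem_univ i₀)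
  · right
    exact not_nonempty_iff.1 h

theorem le_of_pow_le' {x B : ℝ} {m : ℕ} (hm : 0 < m) (h : x ^ m ≤ B) : x ≤ 1 + |B| := by
  by_cases hx : x ≤ 1
  · have := abs_nonneg B
    linarith
  · push Not at hx
    have h1 : x ≤ x ^ m := le_self_pow₀ hx.le hm.ne'
    have := le_abs_self B
    linarith

section

variable {n : ℕ} {Z : Type} [TopologicalSpace Z] [ChartedSpace (Cm n) Z]
  [IsManifold 𝓘(ℂ, Cm n) ω Z]

/-- coordinates which extend functions with independent differentials -/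
theorem adapt {z : Z} {α : Type} [Fintype α] {g : α → Z → ℂ} (hg : ∀ a, HolV (Cm n) (g a) z)
    (hs : Function.Surjective fun (v : Cm n) (a : α) => dif (Cm n) (g a) z v) :
    ∃ (ι : α → Fin n) (ξ : Z → Cm n), Function.Injective ι ∧ HolV (Cm n) ξ z ∧
      IsUnit (dV (Cm n) ξ z) ∧ ∀ a x, ξ x (ι a) = g a x := by
  classical
  obtain ⟨ι, hι, hdet⟩ := exists_compl (fun a => dif (Cm n) (g a) z) hs
  set φ := chartAt (Cm n) z with hφ
  have hz : z ∈ φ.source := mem_chart_source _ z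
  -- the chart, composed with the inverse of its differential at `z`
  have hu := isUnit_dV_chart (E := Cm n) hz
  set R : Cm n →L[ℂ] Cm n := Ring.inverse (dV (Cm n) (φ : Z → Cm n) z) with hR
  have hRi : R * dV (Cm n) (φ : Z → Cm n) z = 1 := Ring.inverse_mul_cancel _ hu
  set ψ : Z → Cm n := fun x => R (φ x) with hψ
  have hψh : HolV (Cm n) ψ z := HolV.comp_contDiff (G := fun v => R v) R.contDiff.contDiffAt
    (HolV.chart hz)
  have hψd : ∀ v, dV (Cm n) ψ z v = v := by
    intro v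
    have h1 := dV_comp_contDiff (G := fun v => R v) (R.contDiff.contDiffAt) (HolV.chart hz)
    have h2 : fderiv ℂ (fun v => R v) (φ z) = R := R.fderiv
    have h3 : dV (Cm n) ψ z = R.comp (dV (Cm n) (φ : Z → Cm n) z) := by
      rw [← h2]
      exact h1
    rw [h3]
    exact congrArg (fun T : Cm n →L[ℂ] Cm n => T v) hRi
  refine ⟨ι, fun x i => Function.extend ι (fun a => g a x) (fun i => ψ x i) i, hι, ?_, ?_,
    fun a x => hι.extend_apply _ _ a⟩
  · refine HolV.piF fun i => ?_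
    by_cases hi : ∃ a, ι a = i
    · obtain ⟨a, rfl⟩ := hi
      have h1 : (fun x => Function.extend ι (fun a => g a x) (fun i => ψ x i) (ι a)) = g a :=
        funext fun x => hι.extend_apply _ _ a
      rw [h1]
      exact hg a
    · have h1 : (fun x => Function.extend ι (fun a => g a x) (fun i => ψ x i) i) =
          fun x => ψ x i := funext fun x => Function.extend_apply' _ _ _ hi
      rw [h1]
      exact hψh.eval i
  · have hhol : HolV (Cm n) (fun x i => Function.extend ι (fun a => g a x) (fun i => ψ x i) i)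
        z := by
      refine HolV.piF fun i => ?_
      by_cases hi : ∃ a, ι a = i
      · obtain ⟨a, rfl⟩ := hi
        have h1 : (fun x => Function.extend ι (fun a => g a x) (fun i => ψ x i) (ι a)) = g a :=
          funext fun x => hι.extend_apply _ _ a
        rw [h1]
        exact hg a
      · have h1 : (fun x => Function.extend ι (fun a => g a x) (fun i => ψ x i) i) =
            fun x => ψ x i := funext fun x => Function.extend_apply' _ _ _ hi
        rw [h1]
        exact hψh.eval i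
    set B : Cm n →L[ℂ] Cm n := ContinuousLinearMap.pi
      (Function.extend ι (fun a => dif (Cm n) (g a) z) fun i => ContinuousLinearMap.proj i) with hB
    have hBe : dV (Cm n) (fun x i => Function.extend ι (fun a => g a x) (fun i => ψ x i) i) z =
        B := by
      ext v i
      rw [X.dV_comp_i hhol]
      by_cases hi : ∃ a, ι a = i
      · obtain ⟨a, rfl⟩ := hi
        have h1 : (fun x => Function.extend ι (fun a => g a x) (fun i => ψ x i) (ι a)) = g a :=
          funext fun x => hι.extend_apply _ _ a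
        rw [h1, ← dif_eq_dV]
        have h2 := hι.extend_apply (fun a => dif (Cm n) (g a) z)
          (fun i => (ContinuousLinearMap.proj i : Cm n →L[ℂ] ℂ)) a
        show dif (Cm n) (g a) z v = (Function.extend ι (fun a => dif (Cm n) (g a) z)
          (fun i => (ContinuousLinearMap.proj i : Cm n →L[ℂ] ℂ)) (ι a)) v
        rw [h2]
      · have h1 : (fun x => Function.extend ι (fun a => g a x) (fun i => ψ x i) i) =
            fun x => ψ x i := funext fun x => Function.extend_apply' _ _ _ hi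
        have h2 := Function.extend_apply' (fun a => dif (Cm n) (g a) z)
          (fun i => (ContinuousLinearMap.proj i : Cm n →L[ℂ] ℂ)) i hi
        rw [h1, ← X.dV_comp_i hψh, hψd]
        show v i = (Function.extend ι (fun a => dif (Cm n) (g a) z)
          (fun i => (ContinuousLinearMap.proj i : Cm n →L[ℂ] ℂ)) i) v
        rw [h2]
        rfl
    rw [hBe]
    obtain ⟨L, hL⟩ : ∃ L : Cm n ≃L[ℂ] Cm n, (L : Cm n →L[ℂ] Cm n) = B := by
      refine ⟨(LinearMap.equivOfDetNeZero ((B : Cm n →L[ℂ] Cm n) : Cm n →ₗ[ℂ] Cm n)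
        hdet).toContinuousLinearEquiv, ?_⟩
      ext v
      rfl
    rw [← hL]
    exact ⟨ContinuousLinearEquiv.toUnit L, rfl⟩

end

section

variable {n p : ℕ} {Z Y : Type} [TopologicalSpace Z] [ChartedSpace (Cm n) Z]
  [IsManifold 𝓘(ℂ, Cm n) ω Z] [TopologicalSpace Y] [ChartedSpace (Cm p) Y]
  [IsManifold 𝓘(ℂ, Cm p) ω Y]

/-- The differential of `f`, in the coordinates `ξ`. -/
def dA (n p : ℕ) {Z Y : Type} [TopologicalSpace Z] [ChartedSpace (Cm n) Z] [TopologicalSpace Y]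
    [ChartedSpace (Cm p) Y] (f : Z → Y) (ξ : Z → Cm n) (x : Z) : Cm n →L[ℂ] Cm p :=
  (dM (Cm n) (Cm p) f x).comp (Ring.inverse (dV (Cm n) ξ x))

/-- If `f` maps `g = 0`, `g` one of the coordinates, to a divisor, then the minors of `f` without
`g` are divisible by `g`, relative to all minors. -/
theorem minor_le {f : Z → Y} (hf : ∀ x, HolM (Cm n) (Cm p) f x) {x' : Z} {ξ : Z → Cm n}
    (hξ : HolV (Cm n) ξ x') (hξu : IsUnit (dV (Cm n) ξ x')) {i₀ : Fin n} {g : Z → ℂ}
    (hg : ∀ x, ξ x i₀ = g x) (hg0 : g x' = 0) {gY : Y → ℂ} (hgY : HolV (Cm p) gY (f x'))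
    {k : ℕ} (hk : 0 < k) {w : Z → ℂ} (hw : HolV (Cm n) w x') (hw0 : w x' ≠ 0)
    (heq : ∀ᶠ x in 𝓝 x', gY (f x) = g x ^ k * w x) (κ : Fin p → Fin n) (hκ : ∀ b, κ b ≠ i₀) :
    ∃ C : ℝ, 0 ≤ C ∧ ∀ᶠ x in 𝓝 x', g x ≠ 0 → ‖(mK (dA n p f ξ x) κ).det‖ ≤
      C * ‖g x‖ * ∑ L : Fin p → Fin n, ‖(mK (dA n p f ξ x) L).det‖ := by
  classical
  have hgh : HolV (Cm n) g x' := by
    have h1 : g = fun x => ξ x i₀ := funext fun x => (hg x).symm
    rw [h1]
    exact hξ.eval i₀
  set Rw : Z → (Cm n →L[ℂ] ℂ) := fun z =>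
    (dV (Cm n) w z).comp (Ring.inverse (dV (Cm n) ξ z)) with hRw
  have hRwh : HolV (Cm n) Rw x' := holV_quot hw hξ hξu
  have hRwc : ∀ j, ContinuousAt (fun z => Rw z (Pi.single j 1)) x' := fun j =>
    (X.holV_app hRwh _).continuousAt
  -- the differential of `gY ∘ f`
  have hkey : ∀ᶠ z in 𝓝 x', ∀ v, dV (Cm p) gY (f z) (dA n p f ξ z v) =
      g z ^ (k - 1) * (k * w z * v i₀ + g z * Rw z v) := by
    filter_upwards [hgh.eventually, hw.eventually, heq.eventually_nhds,
      (hf x').continuousAt.eventually (HolV.eventually (E := Cm p) hgY), unit_nhds hξ hξu]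
      with z h1 h2 h3 h4 h5 v
    have h6 : (dV (Cm p) gY (f z)).comp (dM (Cm n) (Cm p) f z) =
        dV (Cm n) (fun z => gY (f z)) z := (dV_comp h4 (hf z)).symm
    have h7 : dV (Cm n) (fun z => gY (f z)) z = dV (Cm n) (fun z => g z ^ k * w z) z :=
      Filter.EventuallyEq.mfderiv_eq h3
    have h8 := dV_pow_mul h1 h2 hk
    have h9 := congrArg (fun T : Cm n →L[ℂ] ℂ => T (Ring.inverse (dV (Cm n) ξ z) v))
      (h6.trans (h7.trans h8))
    simp only [ContinuousLinearMap.comp_apply, ContinuousLinearMap.smul_apply,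
      ContinuousLinearMap.add_apply, smul_eq_mul] at h9
    have h10 : dV (Cm n) g z (Ring.inverse (dV (Cm n) ξ z) v) = v i₀ := by
      have h11 : g = fun x => ξ x i₀ := funext fun x => (hg x).symm
      rw [h11, ← X.dV_comp_i h5.1]
      have h12 : dV (Cm n) ξ z * Ring.inverse (dV (Cm n) ξ z) = 1 :=
        Ring.mul_inverse_cancel _ h5.2.1
      have h13 := congrArg (fun T : Cm n →L[ℂ] Cm n => T v i₀) h12
      exact h13
    rw [h10] at h9
    exact h9
  set q : Z → ℂ := fun z => k * w z + g z * Rw z (Pi.single i₀ 1) with hq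
  have hqc : ContinuousAt q x' := (continuousAt_const.mul hw.continuousAt).add
    (hgh.continuousAt.mul (hRwc i₀))
  have hq0 : q x' ≠ 0 := by
    show (k : ℂ) * w x' + g x' * Rw x' (Pi.single i₀ 1) ≠ 0
    rw [hg0, zero_mul, add_zero]
    exact mul_ne_zero (by exact_mod_cast hk.ne') hw0
  have hR : ∀ᶠ z in 𝓝 x', ∀ j, ‖Rw z (Pi.single j 1)‖ ≤ ∑ j, (‖Rw x' (Pi.single j 1)‖ + 1) := by
    refine eventually_all.2 fun j => ?_
    filter_upwards [(hRwc j).norm.eventually_lt_const (lt_add_one ‖Rw x' (Pi.single j 1)‖)]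
      with z hz
    refine hz.le.trans ?_
    exact Finset.single_le_sum (f := fun j => ‖Rw x' (Pi.single j 1)‖ + 1)
      (fun j _ => by positivity) (Finset.mem_univ j)
  set R : ℝ := ∑ j, (‖Rw x' (Pi.single j 1)‖ + 1) with hRd
  have hR0 : 0 ≤ R := Finset.sum_nonneg fun j _ => by positivity
  have hqn : ∀ᶠ z in 𝓝 x', ‖q x'‖ / 2 < ‖q z‖ :=
    hqc.norm.eventually_const_lt (half_lt_self (norm_pos_iff.2 hq0))
  have hq2 : 0 < ‖q x'‖ / 2 := by
    have := norm_pos_iff.2 hq0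
    positivity
  refine ⟨p * R / (‖q x'‖ / 2), by positivity, ?_⟩
  filter_upwards [hkey, hR, hqn] with z h1 h2 h3 hgz
  have h4 := cramer_id (dA n p f ξ z) (dV (Cm p) gY (f z)) κ i₀
  have h5 : (mK (dA n p f ξ z) κ).det * q z =
      g z * ∑ b, (mK (dA n p f ξ z) (Function.update κ b i₀)).det *
        Rw z (Pi.single (κ b) 1) := by
    have h6 : g z ^ (k - 1) ≠ 0 := pow_ne_zero _ hgz
    apply mul_left_cancel₀ h6
    have h7 : ∀ b, dV (Cm p) gY (f z) (dA n p f ξ z (Pi.single (κ b) 1)) =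
        g z ^ (k - 1) * (g z * Rw z (Pi.single (κ b) 1)) := by
      intro b
      rw [h1, Pi.single_eq_of_ne (hκ b).symm]
      ring
    rw [h1 (Pi.single i₀ 1), Pi.single_eq_same] at h4
    simp only [h7] at h4
    rw [Finset.mul_sum, Finset.mul_sum]
    have h8 : g z ^ (k - 1) * ((mK (dA n p f ξ z) κ).det * q z) =
        (mK (dA n p f ξ z) κ).det * (g z ^ (k - 1) * (↑k * w z * 1 + g z *
          Rw z (Pi.single i₀ 1))) := by
      rw [hq]
      ring
    rw [h8, h4]
    refine Finset.sum_congr rfl fun b _ => ?_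
    ring
  have h6 : ‖∑ b, (mK (dA n p f ξ z) (Function.update κ b i₀)).det * Rw z (Pi.single (κ b) 1)‖ ≤
      p * R * ∑ L : Fin p → Fin n, ‖(mK (dA n p f ξ z) L).det‖ := by
    refine (norm_sum_le _ _).trans ?_
    calc ∑ b : Fin p, ‖(mK (dA n p f ξ z) (Function.update κ b i₀)).det *
          Rw z (Pi.single (κ b) 1)‖
        ≤ ∑ b : Fin p, (∑ L : Fin p → Fin n, ‖(mK (dA n p f ξ z) L).det‖) * R := by
          refine Finset.sum_le_sum fun b _ => ?_
          rw [norm_mul]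
          refine mul_le_mul ?_ (h2 _) (norm_nonneg _) (Finset.sum_nonneg fun L _ => norm_nonneg _)
          exact Finset.single_le_sum (f := fun L : Fin p → Fin n =>
            ‖(mK (dA n p f ξ z) L).det‖) (fun L _ => norm_nonneg _) (Finset.mem_univ _)
      _ = p * R * ∑ L : Fin p → Fin n, ‖(mK (dA n p f ξ z) L).det‖ := by
          rw [Finset.sum_const, Finset.card_univ, Fintype.card_fin, nsmul_eq_mul]
          ring
  have h7 : ‖(mK (dA n p f ξ z) κ).det‖ * ‖q z‖ ≤
      ‖g z‖ * (p * R * ∑ L : Fin p → Fin n, ‖(mK (dA n p f ξ z) L).det‖) := by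
    rw [← norm_mul, h5, norm_mul]
    exact mul_le_mul_of_nonneg_left h6 (norm_nonneg _)
  have h8 : ‖(mK (dA n p f ξ z) κ).det‖ * (‖q x'‖ / 2) ≤
      ‖g z‖ * (p * R * ∑ L : Fin p → Fin n, ‖(mK (dA n p f ξ z) L).det‖) :=
    (mul_le_mul_of_nonneg_left h3.le (norm_nonneg _)).trans h7
  rw [← le_div_iff₀ hq2] at h8
  refine h8.trans (le_of_eq ?_)
  ring

/-- the bound for the powers -/
theorem minor_pow_le {x' : Z} {A : Z → (Cm n →L[ℂ] Cm p)} {g s : Z → ℂ} (hgc : ContinuousAt g x')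
    (hg0 : g x' = 0) {κ : Fin p → Fin n}
    (h : ∃ C : ℝ, 0 ≤ C ∧ ∀ᶠ x in 𝓝 x', g x ≠ 0 → ‖(mK (A x) κ).det‖ ≤
      C * ‖g x‖ * ∑ L : Fin p → Fin n, ‖(mK (A x) L).det‖) {P : Z → Prop} (hP : ∀ x, P x → g x ≠ 0)
    {K m : ℕ} (hK : K ≤ m) (hC : ∀ L : Fin p → Fin n, ∃ C : ℝ, ∀ᶠ x in 𝓝 x', P x →
      ‖s x‖ * ‖(mK (A x) L).det‖ ^ m * ‖g x‖ ^ K ≤ C) :
    ∃ C : ℝ, ∀ᶠ x in 𝓝 x', P x → ‖s x‖ * ‖(mK (A x) κ).det‖ ^ m ≤ C := by
  classical
  obtain ⟨C, hC0, hCe⟩ := h
  choose C' hC' using hC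
  haveI : Nonempty (Fin p → Fin n) := ⟨κ⟩
  set N : ℝ := (Fintype.card (Fin p → Fin n) : ℝ) with hN
  refine ⟨C ^ m * N ^ m * ∑ L, |C' L|, ?_⟩
  have hg1 : ∀ᶠ x in 𝓝 x', ‖g x‖ < 1 := by
    have h2 : ‖g x'‖ < 1 := by rw [hg0, norm_zero]; exact one_pos
    exact hgc.norm.eventually_lt_const h2
  filter_upwards [hCe, eventually_all.2 hC', hg1] with x h1 h2 h3 hx
  have h4 := h1 (hP x hx)
  have h5 : ‖(mK (A x) κ).det‖ ^ m ≤ C ^ m * ‖g x‖ ^ m * (N ^ m *
      ∑ L : Fin p → Fin n, ‖(mK (A x) L).det‖ ^ m) := by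
    refine (pow_le_pow_left₀ (norm_nonneg _) h4 m).trans ?_
    rw [mul_pow, mul_pow]
    refine mul_le_mul_of_nonneg_left ?_ (by positivity)
    rcases sum_pow_le (fun L : Fin p → Fin n => ‖(mK (A x) L).det‖) (fun L => norm_nonneg _) m
      with h6 | h6
    · exact h6
    · exact absurd h6 (not_isEmpty_iff.2 ⟨κ⟩)
  have h6 : ‖g x‖ ^ m ≤ ‖g x‖ ^ K := pow_le_pow_of_le_one (norm_nonneg _) h3.le hK
  have h7 : ∀ L, ‖s x‖ * ‖(mK (A x) L).det‖ ^ m * ‖g x‖ ^ m ≤ |C' L| := fun L =>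
    ((mul_le_mul_of_nonneg_left h6 (by positivity)).trans (h2 L hx)).trans (le_abs_self _)
  calc ‖s x‖ * ‖(mK (A x) κ).det‖ ^ m
      ≤ ‖s x‖ * (C ^ m * ‖g x‖ ^ m * (N ^ m *
          ∑ L : Fin p → Fin n, ‖(mK (A x) L).det‖ ^ m)) :=
        mul_le_mul_of_nonneg_left h5 (norm_nonneg _)
    _ = C ^ m * N ^ m * ∑ L : Fin p → Fin n,
          (‖s x‖ * ‖(mK (A x) L).det‖ ^ m * ‖g x‖ ^ m) := by
        rw [Finset.mul_sum, Finset.mul_sum, Finset.mul_sum, Finset.mul_sum]
        refine Finset.sum_congr rfl fun L _ => ?_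
        ring
    _ ≤ C ^ m * N ^ m * ∑ L, |C' L| :=
        mul_le_mul_of_nonneg_left (Finset.sum_le_sum fun L _ => h7 L) (by positivity)

end

end Vale.Agent.P281.H303.R
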