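import Vale.Agent.P281.H303.R.Pull
import Vale.Agent.P281.H303.X.Fin
import Vale.Agent.P281.H364.MM.StepFin
import Vale.Agent.P281.H495.Cov.Base

/-!
# P281 (helper303): linked fibrations
-/

open scoped Manifold ContDiff Topology
open Set Filter

set_option linter.all false

noncomputable section

namespace Vale.Agent.P281.H303.R

open Vale.Agent.P281 Vale.Agent.P281.H713 Vale.Agent.P281.H64 Vale.Agent.P281.H64.Gen
open Vale.Agent.P281.ISO Vale.Agent.P281.H308.Bir Vale.Agent.P281.H713.SA Vale.Agent.P281.MF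
open Vale.Agent.P281.H64.Thin (IsThinSet)
open Vale.Agent.P281.H511.Surf (IsFibration)
open Vale.Agent.P281.H364.MM (preconnected_diff modif_conn fib_modif modif_surj)

/-- a limit of connected fibres is connected -/
theorem conn_lim {p : ℕ} {X Y : Type} [TopologicalSpace X] [T2Space X] [CompactSpace X]
    [TopologicalSpace Y] [T2Space Y] [ChartedSpace (Cm p) Y] [IsManifold 𝓘(ℂ, Cm p) ω Y]
    {f : X → Y} (hf : Continuous f) (hs : Function.Surjective f) {S : Set Y}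
    (hS : IsSmallSet (Cm p) S) (hd : Dense (f ⁻¹' Sᶜ))
    (hc : ∀ y, y ∉ S → IsPreconnected (f ⁻¹' {y})) (y : Y) : IsConnected (f ⁻¹' {y}) := by
  have hcl : IsClosed (f ⁻¹' {y}) := isClosed_singleton.preimage hf
  have hcm : IsClosedMap f := hf.isClosedMap
  refine ⟨hs y, ?_⟩
  rw [isPreconnected_closed_iff]
  intro t t' ht ht' hsub hne hne'
  by_contra hcon
  have hdis : Disjoint (f ⁻¹' {y} ∩ t) (f ⁻¹' {y} ∩ t') := by
    rw [disjoint_left]
    intro z hz hz'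
    exact hcon ⟨z, hz.1, hz.2, hz'.2⟩
  obtain ⟨U, U', hU, hU', hAU, hBU, hUU⟩ := SeparatedNhds.of_isCompact_isCompact
    (hcl.inter ht).isCompact (hcl.inter ht').isCompact hdis
  have hW : IsOpen (f '' (U ∪ U')ᶜ)ᶜ := (hcm _ (hU.union hU').isClosed_compl).isOpen_compl
  have hyW : y ∈ (f '' (U ∪ U')ᶜ)ᶜ := by
    rintro ⟨z, hz, hzx⟩
    apply hz
    rcases hsub (show z ∈ f ⁻¹' {y} from hzx) with h1 | h1
    · exact Or.inl (hAU ⟨hzx, h1⟩)
    · exact Or.inr (hBU ⟨hzx, h1⟩)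
  have hlc : LocallyConnectedSpace Y := ChartedSpace.locallyConnectedSpace (Cm p) Y
  obtain ⟨V, ⟨hVo, hyV, hVc⟩, hVW⟩ :=
    (LocallyConnectedSpace.open_connected_basis y).mem_iff.1 (hW.mem_nhds hyW)
  have hC := preconnected_diff hVo hVc.isPreconnected hS
  have hO : ∀ O : Set X, IsOpen O → IsOpen (f '' Oᶜ)ᶜ := fun O hO =>
    (hcm _ hO.isClosed_compl).isOpen_compl
  have hdich : ∀ y' ∈ V \ S, f ⁻¹' {y'} ⊆ U ∨ f ⁻¹' {y'} ⊆ U' := by
    rintro y' ⟨hyV', hyS'⟩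
    have h1 : f ⁻¹' {y'} ⊆ U ∪ U' := by
      intro z hz
      by_contra h2
      exact hVW hyV' ⟨z, h2, hz⟩
    exact IsPreconnected.subset_or_subset hU hU' hUU h1 (hc y' hyS')
  have hnon : ∀ O O' : Set X, IsOpen O → Disjoint O O' →
      (∀ y' ∈ V \ S, f ⁻¹' {y'} ⊆ O ∨ f ⁻¹' {y'} ⊆ O') → (∃ z ∈ O, f z = y) →
      ((V \ S) ∩ (f '' Oᶜ)ᶜ).Nonempty := by
    rintro O O' hO hdO hdi ⟨z, hzO, hzx⟩
    obtain ⟨z', ⟨h1, h2⟩, h3⟩ := hd.inter_open_nonempty (O ∩ f ⁻¹' V)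
      (hO.inter (hVo.preimage hf)) ⟨z, hzO, by rw [mem_preimage, hzx]; exact hyV⟩
    refine ⟨f z', ⟨h2, h3⟩, ?_⟩
    rintro ⟨z'', hz'', he⟩
    rcases hdi (f z') ⟨h2, h3⟩ with h4 | h4
    · exact hz'' (h4 he)
    · exact disjoint_left.1 hdO h1 (h4 rfl)
  obtain ⟨y', ⟨hyV', hyS'⟩, h5, h6⟩ := hC _ _ (hO U hU) (hO U' hU')
    (by
      intro y' hy'
      rcases hdich y' hy' with h1 | h1
      · left
        rintro ⟨z, hz, he⟩
        exact hz (h1 he)
      · right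
        rintro ⟨z, hz, he⟩
        exact hz (h1 he))
    (hnon U U' hU hUU hdich (by
      obtain ⟨z, hz⟩ := hne
      exact ⟨z, hAU hz, hz.1⟩))
    (hnon U' U hU' hUU.symm (fun y' h => (hdich y' h).symm) (by
      obtain ⟨z, hz⟩ := hne'
      exact ⟨z, hBU hz, hz.1⟩))
  obtain ⟨z, hz⟩ := hs y'
  have h7 : z ∈ U := by
    by_contra h
    exact h5 ⟨z, h, hz⟩
  have h8 : z ∈ U' := by
    by_contra h
    exact h6 ⟨z, h, hz⟩
  exact disjoint_left.1 hUU h7 h8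

section

variable {n p : ℕ} {X Y X₁ Y₁ : Type} [TopologicalSpace X] [ChartedSpace (Cm n) X]
  [TopologicalSpace Y] [ChartedSpace (Cm p) Y] [TopologicalSpace X₁] [ChartedSpace (Cm n) X₁]
  [TopologicalSpace Y₁] [ChartedSpace (Cm p) Y₁] {f : X → Y} {Δ : Set X → ℝ} {f₁ : X₁ → Y₁}
  {Δ₁ : Set X₁ → ℝ}

/-- the lower row of a square is a fibration if the upper row is one -/
theorem fib_down (h₁ : IsFibration (Cm n) (Cm p) f₁ Δ₁)
    (hs : TZ.S.IsStep (Cm n) (Cm p) f₁ Δ₁ f Δ) : IsFibration (Cm n) (Cm p) f Δ := by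
  obtain ⟨u, v, hu, hv, hcomm, hf, hf₁, hΔ, hΔ₁, -, -⟩ := hs
  have hus := modif_surj hu
  have : CompactSpace X₁ := h₁.compact
  have : ConnectedSpace X₁ := h₁.connected
  have huc : Continuous u := hu.2.1.continuous
  have h2 := fib_modif H737.Gen.exc h₁ hv
  refine ⟨⟨hu.1.1, hv.1.1⟩, hus.compactSpace huc, hus.connectedSpace huc,
    ⟨hu.1.2.2.1, hv.1.2.2.1⟩, hf, fun y => ?_, hΔ⟩
  have h3 : f ⁻¹' {y} = u '' ((fun x => v (f₁ x)) ⁻¹' {y}) := by
    ext x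
    constructor
    · intro hx
      obtain ⟨z, rfl⟩ := hus x
      exact ⟨z, by
        show v (f₁ z) = y
        rw [← hcomm z]
        exact hx, rfl⟩
    · rintro ⟨z, hz, rfl⟩
      show f (u z) = y
      rw [hcomm z]
      exact hz
  rw [h3]
  exact (h2.fibres y).image u huc.continuousOn

/-- the upper row of a square is a fibration if the lower row is one -/
theorem fib_up (h : IsFibration (Cm n) (Cm p) f Δ)
    (hs : TZ.S.IsStep (Cm n) (Cm p) f₁ Δ₁ f Δ) : IsFibration (Cm n) (Cm p) f₁ Δ₁ := by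
  obtain ⟨u, v, hu, hv, hcomm, hf, hf₁, hΔ, hΔ₁, -, -⟩ := hs
  have hus := modif_surj hu
  have hvs := modif_surj hv
  have : T2Space X := hu.1.1
  have : T2Space X₁ := hu.1.2.1
  have : IsManifold 𝓘(ℂ, Cm n) ω X := hu.1.2.2.1
  have : IsManifold 𝓘(ℂ, Cm n) ω X₁ := hu.1.2.2.2
  have : T2Space Y := hv.1.1
  have : T2Space Y₁ := hv.1.2.1
  have : IsManifold 𝓘(ℂ, Cm p) ω Y := hv.1.2.2.1
  have : IsManifold 𝓘(ℂ, Cm p) ω Y₁ := hv.1.2.2.2
  have : CompactSpace X := h.compact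
  have : ConnectedSpace X := h.connected
  have hfs : Function.Surjective f := fun y => (h.fibres y).nonempty
  have huc : Continuous u := hu.2.1.continuous
  have hvc : Continuous v := hv.2.1.continuous
  have : CompactSpace Y := hfs.compactSpace hf.continuous
  have : ConnectedSpace Y := hfs.connectedSpace hf.continuous
  have : CompactSpace X₁ := ⟨by
    have := hu.2.2.1.isCompact_preimage (isCompact_univ (X := X))
    simpa using this⟩
  have : CompactSpace Y₁ := ⟨by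
    have := hv.2.2.1.isCompact_preimage (isCompact_univ (X := Y))
    simpa using this⟩
  have hqu : Topology.IsQuotientMap u := huc.isClosedMap.isQuotientMap huc hus
  have hX₁ : ConnectedSpace X₁ := by
    have h1 : IsConnected (u ⁻¹' univ) := hqu.isCoinducing.isConnected_preimage_of_isClosed
      (fun x => modif_conn H737.Gen.exc hu x) isClosed_univ isConnected_univ
    rw [preimage_univ] at h1
    exact connectedSpace_iff_univ.2 h1
  have hfu : ∀ y, IsConnected ((fun x => f (u x)) ⁻¹' {y}) := fun y =>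
    hqu.isCoinducing.isConnected_preimage_of_isClosed (fun x => modif_conn H737.Gen.exc hu x)
      (isClosed_singleton.preimage hf.continuous) (h.fibres y)
  have hMu := H349.NF.mod_modif H737.Gen.exc hu
  have hMv := H349.NF.mod_modif H737.Gen.exc hv
  have hNs : IsSmallSet (Cm p) (v '' excSet (Cm p) v) :=
    small_of_small2 (H737.Gen.exc p Y Y₁ v hv)
  have hNo : IsOpen (v '' excSet (Cm p) v)ᶜ := hNs.1.isOpen_compl
  have hsub := H364.Gen.exists_submersive (H364.crit H150.Gen.img) H383.Gen.compl h.hol h.fibres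
  -- the preimage in `X₁`
  have hfd : Dense (f ⁻¹' (v '' excSet (Cm p) v)ᶜ) := by
    have h1 : IsSmallSet (Cm n) (f ⁻¹' (v '' excSet (Cm p) v)) := by
      obtain ⟨hc, H, hH, hsub'⟩ := hNs
      refine ⟨hc.preimage hf.continuous, fun k => f ⁻¹' (H k), fun k =>
        H740.thin_pre hf hsub (hH k), ?_⟩
      rw [← preimage_iUnion]
      exact preimage_mono hsub'
    exact H383.Gen.dense_compl_small h1
  have hd1 : Dense (u ⁻¹' (f ⁻¹' (v '' excSet (Cm p) v)ᶜ)) :=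
    hMu.dpre _ (hNo.preimage hf.continuous) hfd
  have hd2 : f₁ ⁻¹' (v ⁻¹' (v '' excSet (Cm p) v))ᶜ = u ⁻¹' (f ⁻¹' (v '' excSet (Cm p) v)ᶜ) := by
    ext x
    show v (f₁ x) ∉ v '' excSet (Cm p) v ↔ f (u x) ∉ v '' excSet (Cm p) v
    rw [hcomm x]
  -- `f₁` is onto
  have hf₁s : Function.Surjective f₁ := by
    have h2 : IsClosed (range f₁) := (isCompact_range hf₁.continuous).isClosed
    have h3 : v ⁻¹' (v '' excSet (Cm p) v)ᶜ ⊆ range f₁ := by
      intro y hy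
      obtain ⟨x, hx⟩ := hfs (v y)
      obtain ⟨z, rfl⟩ := hus x
      refine ⟨z, ?_⟩
      have h4 : v (f₁ z) = v y := by rw [← hcomm z, hx]
      exact hMv.inj _ _ h4 (by rw [h4]; exact hy)
    have h4 : Dense (v ⁻¹' (v '' excSet (Cm p) v)ᶜ) := hMv.dpre _ hNo hMv.ndense
    intro y
    exact closure_minimal h3 h2 (by rw [h4.closure_eq]; trivial)
  have hY₁ : ConnectedSpace Y₁ := hf₁s.connectedSpace hf₁.continuous
  have hsv : ∃ y, Function.Surjective (mfderiv 𝓘(ℂ, Cm p) 𝓘(ℂ, Cm p) v y) := by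
    obtain ⟨y, hy⟩ := hMv.ndense.nonempty
    obtain ⟨z, rfl⟩ := hvs y
    exact ⟨z, (hMv.exc z hy).2⟩
  have hS : IsSmallSet (Cm p) (v ⁻¹' (v '' excSet (Cm p) v)) := by
    obtain ⟨hc, H, hH, hsub'⟩ := hNs
    refine ⟨hc.preimage hvc, fun k => v ⁻¹' (H k), fun k => H740.thin_pre hv.2.1 hsv (hH k), ?_⟩
    rw [← preimage_iUnion]
    exact preimage_mono hsub'
  refine ⟨⟨inferInstance, inferInstance⟩, inferInstance, hX₁, ⟨inferInstance, inferInstance⟩, hf₁,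
    conn_lim hf₁.continuous hf₁s hS (by rw [hd2]; exact hd1) fun y hy => ?_, hΔ₁⟩
  have h5 : f₁ ⁻¹' {y} = (fun x => f (u x)) ⁻¹' {v y} := by
    ext x
    constructor
    · intro hx
      show f (u x) = v y
      rw [hcomm x, show f₁ x = y from hx]
    · intro hx
      have h6 : v (f₁ x) = v y := by rw [← hcomm x]; exact hx
      exact hMv.inj _ _ h6 (by rw [h6]; exact hy)
  rw [h5]
  exact (hfu (v y)).isPreconnected

/-- `κ(X, K_X + Δ) ≤ κ(X₁, K + Δ₁)` -/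
theorem kodX_up (h : IsFibration (Cm n) (Cm p) f Δ)
    (hs : TZ.S.IsStep (Cm n) (Cm p) f₁ Δ₁ f Δ) :
    TZ.S.kodX (Cm n) Δ ≤ TZ.S.kodX (Cm n) Δ₁ := by
  have h₁ := fib_up h hs
  obtain ⟨u, v, hu, hv, hcomm, hf, hf₁, hΔ, hΔ₁, -, hor⟩ := hs
  have hus := modif_surj hu
  have : T2Space X := hu.1.1
  have : T2Space X₁ := hu.1.2.1
  have : IsManifold 𝓘(ℂ, Cm n) ω X := hu.1.2.2.1
  have : IsManifold 𝓘(ℂ, Cm n) ω X₁ := hu.1.2.2.2
  have : CompactSpace X := h.compact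
  have : CompactSpace X₁ := h₁.compact
  have : ConnectedSpace X := h.connected
  have : ConnectedSpace X₁ := h₁.connected
  have hon : H495.Cov.IsOnto n n u Δ₁ := ⟨⟨inferInstance, inferInstance⟩, inferInstance,
    inferInstance, ⟨inferInstance, inferInstance⟩, hu.2.1, hus, hΔ₁⟩
  obtain ⟨g1, g2, g3, g4⟩ := id hΔ
  have hsn : ∀ y, TZ.S.SNCAt (Cm n) Δ y := fun y g hg => g4 y g hg
  refine le_trans ?_ (H495.Cov.kodF_le_kodX hon)
  rw [TZ.S.kodF_eq]
  exact H713.CO.comp_g H413.TZ.genPart hΔ₁ H511.Gen.isBigOpen_id hu.2.1 (H495.Cov.exists_sub hon)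
    ⟨g1, g2, g3⟩ (fun z G hG hz => subset_closure ⟨⟨G, hG, hz⟩, Eventually.of_forall fun y =>
      hsn y⟩) hΔ₁ (H511.Gen.isRestriction_id Δ₁) hor

/-- **the invariance along a square** -/
theorem step_inv (h : IsFibration (Cm n) (Cm p) f Δ)
    (hs : TZ.S.IsStep (Cm n) (Cm p) f₁ Δ₁ f Δ) :
    TZ.S.kodX (Cm n) Δ₁ = TZ.S.kodX (Cm n) Δ ∧
      TZ.S.kodF n p Δ₁ (id : X₁ → X₁) f₁ = TZ.S.kodF n p Δ (id : X → X) f := by
  have h₁ := fib_up h hs
  have h2 := H364.MM.stepLe n p X Y X₁ Y₁ f f₁ Δ Δ₁ h h₁ hs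
  exact ⟨le_antisymm h2.1 (kodX_up h hs),
    le_antisymm (H64.StatV.step _ _ _ _ _ _ _ _ _ _ h h₁ hs) h2.2⟩

end

/-- **the invariance in the linked class** -/
theorem linked {n p : ℕ} (M M₁ : TZ.S.Fib (Cm n) (Cm p)) (h : TZ.S.Linked (Cm n) (Cm p) M M₁) :
    letI := M.tX; letI := M.tY; letI := M.cX; letI := M.cY
    letI := M₁.tX; letI := M₁.tY; letI := M₁.cX; letI := M₁.cY
    (IsFibration (Cm n) (Cm p) M.f M.Δ ↔ IsFibration (Cm n) (Cm p) M₁.f M₁.Δ) ∧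
      (IsFibration (Cm n) (Cm p) M.f M.Δ → TZ.S.kodX (Cm n) M₁.Δ = TZ.S.kodX (Cm n) M.Δ ∧
        TZ.S.kodF n p M₁.Δ (id : M₁.X → M₁.X) M₁.f = TZ.S.kodF n p M.Δ (id : M.X → M.X) M.f) := by
  induction h with
  | rel A B hAB =>
    letI := A.tX; letI := A.tY; letI := A.cX; letI := A.cY
    letI := B.tX; letI := B.tY; letI := B.cX; letI := B.cY
    refine ⟨⟨fun h => fib_down h hAB, fun h => fib_up h hAB⟩, fun h => ?_⟩
    have h1 := step_inv (fib_down h hAB) hAB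
    exact ⟨h1.1.symm, h1.2.symm⟩
  | refl A => exact ⟨Iff.rfl, fun _ => ⟨rfl, rfl⟩⟩
  | symm A B _ ih =>
    refine ⟨ih.1.symm, fun h => ?_⟩
    have h1 := ih.2 (ih.1.2 h)
    exact ⟨h1.1.symm, h1.2.symm⟩
  | trans A B C _ _ ih ih' =>
    refine ⟨ih.1.trans ih'.1, fun h => ?_⟩
    have h1 := ih.2 h
    have h2 := ih'.2 (ih.1.1 h)
    exact ⟨h2.1.trans h1.1, h2.2.trans h1.2⟩

end Vale.Agent.P281.H303.R
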