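import Vale.Agent.P281.H303.R.Link

/-!
# P281 (helper303): linked fibrations, the inequality and the orbifold base
-/

open scoped Manifold ContDiff Topology
open Set Filter

set_option linter.all false

noncomputable section

namespace Vale.Agent.P281.H303.R

open Vale.Agent.P281 Vale.Agent.P281.H713
open Vale.Agent.P281.H511.Surf (IsFibration)
open Vale.Agent.P281.H713.TZ.S (Cm)

/-- **linked fibrations** -/
theorem link_le (n p : ℕ) (X Y X₁ Y₁ : Type) [tX : TopologicalSpace X] [cX : ChartedSpace (Cm n) X]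
    [tY : TopologicalSpace Y] [cY : ChartedSpace (Cm p) Y] [tX₁ : TopologicalSpace X₁]
    [cX₁ : ChartedSpace (Cm n) X₁] [tY₁ : TopologicalSpace Y₁] [cY₁ : ChartedSpace (Cm p) Y₁]
    (f : X → Y) (f₁ : X₁ → Y₁) (Δ : Set X → ℝ) (Δ₁ : Set X₁ → ℝ)
    (h₁ : IsFibration (Cm n) (Cm p) f₁ Δ₁)
    (hl : TZ.S.Linked (Cm n) (Cm p) ⟨X, Y, tX, tY, cX, cY, f, Δ⟩
      ⟨X₁, Y₁, tX₁, tY₁, cX₁, cY₁, f₁, Δ₁⟩) :
    IsFibration (Cm n) (Cm p) f Δ ∧ TZ.S.kodX (Cm n) Δ₁ ≤ TZ.S.kodX (Cm n) Δ ∧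
      TZ.S.kodF n p Δ (id : X → X) f ≤ TZ.S.kodF n p Δ₁ (id : X₁ → X₁) f₁ := by
  have h := linked _ _ hl
  have hf : IsFibration (Cm n) (Cm p) f Δ := h.1.2 h₁
  have h2 := h.2 hf
  exact ⟨hf, h2.1.le, h2.2.ge⟩

/-- **`κ(f | Δ) ≤ kodF f Δ` if `Y` is a curve, or a fibration linked to `f` has mild exceptional
divisors** -/
theorem kap_le_linked {n p : ℕ} {X Y : Type} [tX : TopologicalSpace X]
    [cX : ChartedSpace (Cm n) X] [tY : TopologicalSpace Y] [cY : ChartedSpace (Cm p) Y]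
    {f : X → Y} {Δ : Set X → ℝ} (hf : IsFibration (Cm n) (Cm p) f Δ)
    (h : p = 1 ∨ ∃ M : TZ.S.Fib (Cm n) (Cm p),
      TZ.S.Linked (Cm n) (Cm p) ⟨X, Y, tX, tY, cX, cY, f, Δ⟩ M ∧
        @H303.X.MildExc n p M.X M.Y M.tX M.cX M.tY M.cY M.f M.Δ) :
    TZ.S.kap (Cm n) (Cm p) ⟨X, Y, tX, tY, cX, cY, f, Δ⟩ ≤
      TZ.S.kodF n p Δ (id : X → X) f := by
  rcases h with hp | ⟨⟨X₁, Y₁, tX₁, tY₁, cX₁, cY₁, f₁, Δ₁⟩, hl, he⟩
  · exact H303.X.kap_le_or hf (Or.inl hp)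
  · have h1 : TZ.S.kap (Cm n) (Cm p) ⟨X, Y, tX, tY, cX, cY, f, Δ⟩ ≤
        TZ.S.kodX (Cm p) (TZ.S.base (Cm n) (Cm p) f₁ Δ₁) := iInf₂_le _ hl
    have h2 := linked _ _ hl
    have h₁ : IsFibration (Cm n) (Cm p) f₁ Δ₁ := h2.1.1 hf
    exact (h1.trans (H303.X.base_le h₁ he)).trans (h2.2 hf).2.le

end Vale.Agent.P281.H303.R
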