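import Vale.Agent.P281.H303.R.Fin

/-!
# P281 (helper303): the inequality passes from a modification of the total space
-/

open Set Filter
open Vale.Agent.P281 Vale.Agent.P281.H713.TZ.S
open Vale.Agent.P281.H511.Surf (IsFibration)
open scoped Manifold ContDiff Topology

noncomputable section

namespace Vale.Agent.P281.H303.R

/-- `κ(X₁, K + Δ₁) ≤ κ(X, K + Δ)` -/
theorem kodX_modif {n : ℕ} {X X₁ : Type} [TopologicalSpace X] [CompactSpace X]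
    [ChartedSpace (Cm n) X] [TopologicalSpace X₁] [ChartedSpace (Cm n) X₁] {u : X₁ → X}
    {Δ : Set X → ℝ} {Δ₁ : Set X₁ → ℝ} (hu : IsModif (Cm n) u) (hΔ : J.IsSNC (Cm n) Δ)
    (hΔ₁ : J.IsSNC (Cm n) Δ₁)
    (hpush : ∀ D, J.IsPrime (Cm n) D → J.IsPrime (Cm n) (u '' D) → Δ₁ D = Δ (u '' D)) :
    kodX (Cm n) Δ₁ ≤ kodX (Cm n) Δ := by
  refine H364.Gen.bir n X X₁ u Δ Δ₁ hu hΔ hΔ₁ fun D hD => ?_
  have hD' : J.IsPrime (Cm n) D := hΔ₁.2.1 D hD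
  by_cases hex : D ⊆ H64.Gen.excSet (Cm n) u
  · exact Or.inl hex
  · have hP := H303.Gen.pushStmt n X X₁ u D hu hD' hex
    exact Or.inr ⟨hP, hpush D hD' hP⟩

/-- **`a + kodF (f ∘ u) Δ₁ ≤ κ(X₁, K + Δ₁)` implies `a + kodF f Δ ≤ κ(X, K + Δ)`** -/
theorem le_modif {n p : ℕ} {X X₁ Y : Type} [TopologicalSpace X] [ChartedSpace (Cm n) X]
    [TopologicalSpace X₁] [ChartedSpace (Cm n) X₁] [TopologicalSpace Y] [ChartedSpace (Cm p) Y]
    {f : X → Y} {Δ : Set X → ℝ} {u : X₁ → X} {Δ₁ : Set X₁ → ℝ}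
    (h : IsFibration (Cm n) (Cm p) f Δ)
    (h₁ : IsFibration (Cm n) (Cm p) (fun z => f (u z)) Δ₁)
    (hu : IsModif (Cm n) u)
    (hpush : ∀ D, J.IsPrime (Cm n) D → J.IsPrime (Cm n) (u '' D) → Δ₁ D = Δ (u '' D))
    (hor : OrbMor (Cm n) (Cm n) u Δ₁ Δ) {a : WithBot ℕ∞}
    (ha : a + kodF n p Δ₁ (id : X₁ → X₁) (fun z => f (u z)) ≤ kodX (Cm n) Δ₁) :
    a + kodF n p Δ (id : X → X) f ≤ kodX (Cm n) Δ := by
  have := h.compact
  exact (add_le_add le_rfl (kodF_pull h h₁ hu hor)).trans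
    (ha.trans (kodX_modif hu h.snc h₁.snc hpush))

end Vale.Agent.P281.H303.R
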