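import Vale.Agent.P281.H303.R.Fin

/-!
# P281 (helper303): `kodF f Δ ≤ kodF (f ∘ u) Δ₁`, without a condition on the fibres of `f ∘ u`
-/

open scoped Manifold ContDiff Topology
open Set Filter Metric Vale.Agent.P281 Vale.Agent.P272.K
open Vale.Agent.P281.MF Vale.Agent.P281.ISO Vale.Agent.P281.ELL Vale.Agent.P281.H713

set_option linter.all false

noncomputable section

namespace Vale.Agent.P281.H303.R

open Vale.Agent.P281.H713.TZ Vale.Agent.P281.H713.SA Vale.Agent.P281.H713.CO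
open Vale.Agent.P281.H498 (tT_coord PoleAt)

/-- **`kodF f Δ ≤ kodF (f ∘ u) Δ₁`** -/
theorem kodF_pull' {n p : ℕ} {X X₁ Y : Type} [TopologicalSpace X] [ChartedSpace (Cm n) X]
    [TopologicalSpace X₁] [ChartedSpace (Cm n) X₁] [TopologicalSpace Y] [ChartedSpace (Cm p) Y]
    {f : X → Y} {Δ : Set X → ℝ} {u : X₁ → X} {Δ₁ : Set X₁ → ℝ}
    (h : H511.Surf.IsFibration (Cm n) (Cm p) f Δ)
    (hΔ₁ : J.IsSNC (Cm n) Δ₁)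
    (hu : TZ.S.IsModif (Cm n) u) (hor : TZ.S.OrbMor (Cm n) (Cm n) u Δ₁ Δ) :
    TZ.S.kodF n p Δ (id : X → X) f ≤ TZ.S.kodF n p Δ₁ (id : X₁ → X₁) (fun z => f (u z)) := by
  classical
  obtain ⟨⟨_, _⟩, _, _, ⟨_, _⟩, hf, hc, hΔ⟩ := h
  have : IsManifold 𝓘(ℂ, Cm n) ω X₁ := hu.1.2.2.2
  have hMu := H349.NF.mod_modif H737.Gen.exc hu
  have hsub := H364.Gen.exists_submersive (H364.crit H150.Gen.img) H383.Gen.compl hf hc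
  have huc : ContMDiff 𝓘(ℂ, Cm n) 𝓘(ℂ, Cm n) ω u := hu.2.1
  rw [TZ.S.kodF_eq, TZ.S.kodF_eq]
  unfold TL.kodF
  refine iSup₂_le fun l hl => ?_
  obtain ⟨m, K, 𝒢, σ, y, hm, hK, h𝒢f, h𝒢p, hpull, hy, h0, hsurj⟩ := hl
  have hcl𝒢 : IsClosed (⋃₀ 𝒢) := by
    rw [sUnion_eq_biUnion]
    exact h𝒢f.isClosed_biUnion fun G hG => (h𝒢p G hG).1
  have hclΔ : IsClosed (⋃₀ {D | Δ D ≠ 0}) := by
    rw [sUnion_eq_biUnion]
    exact hΔ.1.isClosed_biUnion fun D hD => (hΔ.2.1 D hD).1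
  have hd1 := H949.TL.dense_of_sub hf hsub h𝒢f h𝒢p
  have hd2 := H949.TL.dense_of_sub (f := (id : X → X)) contMDiff_id
    (by
      obtain ⟨x⟩ := (inferInstance : Nonempty X)
      refine ⟨x, ?_⟩
      rw [mfderiv_id]
      exact Function.surjective_id) hΔ.1 (fun D hD => hΔ.2.1 D hD)
  have hd' : Dense ({x | f x ∉ ⋃₀ 𝒢} ∩ {x | (id x : X) ∉ ⋃₀ {D | Δ D ≠ 0}}) :=
    hd1.inter_of_isOpen_right hd2 (hclΔ.isOpen_compl)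
  have hdo : IsOpen ({x | f x ∉ ⋃₀ 𝒢} ∩ {x | (id x : X) ∉ ⋃₀ {D | Δ D ≠ 0}}) :=
    (hcl𝒢.isOpen_compl.preimage hf.continuous).inter hclΔ.isOpen_compl
  have hd : Dense {x | (∀ G ∈ 𝒢, f x ∉ G) ∧ ∀ D, Δ D ≠ 0 → x ∉ D} := by
    refine hd'.mono ?_
    rintro x ⟨hx1, hx2⟩
    exact ⟨fun G hG h => hx1 ⟨G, hG, h⟩, fun D hD h => hx2 ⟨D, hD, h⟩⟩
  have hd₁ : Dense {z | (∀ G ∈ 𝒢, f (u z) ∉ G) ∧ ∀ D, Δ D ≠ 0 → u z ∉ D} := by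
    refine (hMu.dpre _ hdo hd').mono ?_
    rintro x ⟨hx1, hx2⟩
    exact ⟨fun G hG h => hx1 ⟨G, hG, h⟩, fun D hD h => hx2 ⟨D, hD, h⟩⟩
  have hΔ₁0 : ∀ D, 0 ≤ Δ₁ D := fun D => by
    obtain ⟨q, hq, h0, -⟩ := hΔ₁.2.2.1 D
    rw [hq]
    exact_mod_cast h0
  exact le_iSup₂_of_le l ⟨m, fun D => ⌊(m : ℝ) * Δ₁ D⌋₊, 𝒢, σ, y, hm,
    fun D => Nat.floor_le (mul_nonneg (Nat.cast_nonneg _) (hΔ₁0 D)), h𝒢f, h𝒢p,
    fun b => pull_section (fun z => huc z) (fun x => hf x) h𝒢f (fun G hG => h𝒢p G hG) hm hΔ hΔ₁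
      hor hK hd hd₁ (hpull b), hy, h0, hsurj⟩ le_rfl

end Vale.Agent.P281.H303.R
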