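import Vale.Agent.P281.H303.R.Lin
import Vale.Agent.P281.H383.TD.PF2

/-!
# P281 (helper303): the pull-backs `f^* σ` with poles on an SNC divisor are orbifold tensors
-/

open scoped Manifold ContDiff Topology
open Set Filter Metric Vale.Agent.P281 Vale.Agent.P272.K
open Vale.Agent.P281.MF Vale.Agent.P281.ISO Vale.Agent.P281.ELL Vale.Agent.P281.H713

set_option linter.all false

noncomputable section

namespace Vale.Agent.P281.H303.R

open Vale.Agent.P281.H713.TZ Vale.Agent.P281.H713.SA Vale.Agent.P281.H713.CO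

variable {n p : ℕ} {Z Y : Type} [TopologicalSpace Z] [ChartedSpace (Cm n) Z]
  [IsManifold 𝓘(ℂ, Cm n) ω Z] [TopologicalSpace Y] [ChartedSpace (Cm p) Y]
  [IsManifold 𝓘(ℂ, Cm p) ω Y]

theorem tT_const {f : Z → Y} {ξ : Z → Cm n} (m : ℕ) (κ : Fin p → Fin n) (z : Z) :
    tT f m ξ (fun t => κ (finProdFinEquiv.symm t).2) z = (mK (dA n p f ξ z) κ).det ^ m := by
  unfold tT tq dA
  have h1 : ∀ r : Fin m, (fun c : Fin p => κ (finProdFinEquiv.symm (finProdFinEquiv (r, c))).2) =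
      κ := fun r => by
    funext c
    rw [Equiv.symm_apply_apply]
  simp only [h1]
  rw [Finset.prod_const, Finset.card_univ, Fintype.card_fin]

theorem bdd_of_cont {φ : Z → ℂ} {y : Z} (h : ContinuousAt φ y) :
    ∀ᶠ w in 𝓝 y, ‖φ w‖ ≤ ‖φ y‖ + 1 := by
  filter_upwards [h.norm.eventually_lt_const (lt_add_one ‖φ y‖)] with w hw
  exact hw.le

/-- **the refined bound** -/
theorem refine (hgen : GenPart) {f : Z → Y} (hf : ∀ x, HolM (Cm n) (Cm p) f x)
    {𝒢 : Set (Set Y)} (h𝒢f : 𝒢.Finite) (h𝒢p : ∀ G ∈ 𝒢, IsPrimeDivisor (Cm p) G)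
    {m : ℕ} {k : Set Y → ℕ} (hk : ∀ G, k G ≠ 0 → G ∈ 𝒢) {σ : Y → ℂ}
    (hσ : IsSection (Cm p) (fun (D : Set Y) z g => IsLocalEq (Cm p) D g z) m k σ)
    {x₀ : Z} {α : Type} [Fintype α] {D : α → Set Z} {g : α → Z → ℂ}
    (hg : ∀ b, IsLocalEq (Cm n) (D b) (g b) x₀) {ξ : Z → Cm n} (hξ : HolV (Cm n) ξ x₀)
    (hξu : IsUnit (dV (Cm n) ξ x₀)) {ι : α → Fin n} (hι : Function.Injective ι)
    (hgξ : ∀ b x, ξ x (ι b) = g b x) {K : α → ℕ} (hK : ∀ b, K b ≤ m)
    (hd : Dense {x | (∀ G ∈ 𝒢, f x ∉ G) ∧ ∀ b, x ∉ D b})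
    (ha : ∀ L : Fin p → Fin n, ∃ a : Z → ℂ, HolV (Cm n) a x₀ ∧ ∀ᶠ x in 𝓝 x₀,
      (∀ G ∈ 𝒢, f x ∉ G) → (∀ b, x ∉ D b) →
        σ (f x) * (mK (dA n p f ξ x) L).det ^ m * ∏ b, g b x ^ K b = a x)
    (κ : Fin p → Fin n) :
    ∃ C : ℝ, ∀ᶠ x in 𝓝 x₀, (∀ G ∈ 𝒢, f x ∉ G) → (∀ b, x ∉ D b) →
      ‖σ (f x)‖ * ‖(mK (dA n p f ξ x) κ).det‖ ^ m *
        ∏ b ∈ Finset.univ.filter (fun b => ∃ c, κ c = ι b), ‖g b x‖ ^ K b ≤ C := by
  classical
  choose a hah hae using ha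
  set B : Finset α := Finset.univ.filter (fun b => ¬ ∃ c, κ c = ι b) with hB
  set A : Finset α := Finset.univ.filter (fun b => ∃ c, κ c = ι b) with hA
  have hAB : ∀ φ : α → ℂ, ∏ b, φ b = (∏ b ∈ A, φ b) * ∏ b ∈ B, φ b := fun φ =>
    (Finset.prod_filter_mul_prod_filter_not Finset.univ (fun b => ∃ c, κ c = ι b) φ).symm
  set Den : Z → ℂ := fun x => ∏ b ∈ B, g b x with hDend
  set h : Z → ℂ := fun x => a κ x / ∏ b ∈ B, g b x ^ K b with hh
  set Good : Z → Prop := fun x => (∀ G ∈ 𝒢, f x ∉ G) ∧ ∀ b, x ∉ D b with hGood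
  set W : Z → Prop := fun x => (∀ b, IsLocalEq (Cm n) (D b) (g b) x) ∧ HolV (Cm n) ξ x ∧
    IsUnit (dV (Cm n) ξ x) ∧ (∀ L, HolV (Cm n) (a L) x) ∧ (∀ L, Good x →
      σ (f x) * (mK (dA n p f ξ x) L).det ^ m * ∏ b, g b x ^ K b = a L x) with hW
  have hWev : ∀ᶠ x in 𝓝 x₀, W x := by
    filter_upwards [eventually_all.2 fun b => (hg b).eventually, unit_nhds hξ hξu,
      eventually_all.2 fun L => (hah L).eventually, eventually_all.2 hae] with x h1 h2 h3 h4
    exact ⟨h1, h2.1, h2.2.1, h3, fun L hx => h4 L hx.1 hx.2⟩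
  have hWW : ∀ᶠ z in 𝓝 x₀, ∀ᶠ z' in 𝓝 z, W z' := eventually_eventually_nhds.2 hWev
  have hDen : ∀ z, W z → HolV (Cm n) Den z := fun z hz => HolV.prod fun b _ => (hz.1 b).holAt
  have hgne : ∀ z, W z → (∀ b, z ∉ D b) → ∀ b, g b z ≠ 0 := fun z hz h b h0 =>
    h b ((hz.1 b).mem_iff.2 h0)
  have hDne : ∀ z, (∀ᶠ z' in 𝓝 z, W z') → ¬ ∀ᶠ z' in 𝓝 z, Den z' = 0 := by
    intro z hz hcon
    have h1 : ∃ᶠ z' in 𝓝 z, Good z' := mem_closure_iff_frequently.1 (hd z)
    obtain ⟨z', h2, h3, h4⟩ := (h1.and_eventually (hz.and hcon)).exists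
    exact Finset.prod_ne_zero_iff.2 (fun b _ => hgne z' h3 h2.2 b) h4
  have hhol : ∀ z, W z → Den z ≠ 0 → HolV (Cm n) h z := by
    intro z hz hz0
    exact HolV.div (hz.2.2.2.1 κ) (HolV.prod fun b _ => (hz.1 b).holAt.pow _)
      (Finset.prod_ne_zero_iff.2 fun b hb => pow_ne_zero _ (Finset.prod_ne_zero_iff.1 hz0 b hb))
  obtain ⟨Q, hQ, hQe⟩ := extendM_off (h := h) (hDen x₀ hWev.self_of_nhds) (hDne x₀ hWev) (by
    filter_upwards [hWev] with z hz hz0
    exact hhol z hz hz0) (by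
    filter_upwards [hWW] with z hz hz0
    rw [mem_closure_iff_nhds]
    intro t ht
    have hch : ∀ G, ∃ e : Y → ℂ, G ∈ 𝒢 → IsLocalEq (Cm p) G e (f z) := by
      intro G
      by_cases hG : G ∈ 𝒢
      · obtain ⟨e, he⟩ := (h𝒢p G hG).2.1 (f z)
        exact ⟨e, fun _ => he⟩
      · exact ⟨0, fun h => absurd h hG⟩
    choose gY hgY using hch
    have hgYe : ∀ᶠ x in 𝓝 z, ∀ G ∈ 𝒢, IsLocalEq (Cm p) G (gY G) (f x) := by
      rw [eventually_all_finite h𝒢f]
      intro G hG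
      exact (hf z).continuousAt.eventually (hgY G hG).eventually
    haveI : Finite {G // G ∈ 𝒢} := h𝒢f.to_subtype
    obtain ⟨y, ⟨hyt, hyW⟩, hDy, e, he, he0, hde, hDe, hgen'⟩ := genM' hgen
      (hDen z hz.self_of_nhds) (hDne z hz) hz0 (ι := {G // G ∈ 𝒢} ⊕ α)
      (b := Sum.elim (fun (G : {G // G ∈ 𝒢}) x => gY G (f x)) g) (by
        rintro (⟨G, hG⟩ | b)
        · have h1 : HolV (Cm n) (fun w => gY G (f w)) z := HolV.comp (E' := Cm p)
            (hgY G hG).holAt (hf z)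
          exact h1
        · exact (hz.self_of_nhds.1 b).holAt)
      (U := t ∩ {y | ∀ᶠ z' in 𝓝 y, W z' ∧ ∀ G ∈ 𝒢, IsLocalEq (Cm p) G (gY G) (f z')})
      (inter_mem ht (eventually_eventually_nhds.2 (hz.and hgYe)))
    refine ⟨y, hyt, hDy, ?_⟩
    have hyW : ∀ᶠ z' in 𝓝 y, W z' ∧ ∀ G ∈ 𝒢, IsLocalEq (Cm p) G (gY G) (f z') := hyW
    have hyW0 : W y := hyW.self_of_nhds.1
    have hyG0 : ∀ G ∈ 𝒢, IsLocalEq (Cm p) G (gY G) (f y) := hyW.self_of_nhds.2
    have hfreq : ∃ᶠ z' in 𝓝 y, Good z' := mem_closure_iff_frequently.1 (hd y)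
    have hbg : ∀ b, ∃ (k : ℕ) (u : Z → ℂ), HolV (Cm n) u y ∧ u y ≠ 0 ∧
        ∀ᶠ w in 𝓝 y, g b w = e w ^ k * u w := by
      intro b
      rcases hgen' (Sum.inr b) with h1 | h1
      · exfalso
        obtain ⟨z', h2, h3, h4⟩ := (hfreq.and_eventually (hyW.and h1)).exists
        exact hgne z' h3.1 h2.2 b h4
      · exact h1
    have hbG : ∀ G ∈ 𝒢, ∃ (k : ℕ) (u : Z → ℂ), HolV (Cm n) u y ∧ u y ≠ 0 ∧
        ∀ᶠ w in 𝓝 y, gY G (f w) = e w ^ k * u w := by
      intro G hG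
      rcases hgen' (Sum.inl ⟨G, hG⟩) with h1 | h1
      · exfalso
        obtain ⟨z', h2, h3, h4⟩ := (hfreq.and_eventually (hyW.and h1)).exists
        exact h2.1 G hG ((h3.2 G hG).mem_iff.2 h4)
      · exact h1
    choose kg ug hug hug0 hge using hbg
    obtain ⟨b₁, hb₁, hb₁0⟩ := Finset.prod_eq_zero_iff.1 hDy
    have hκ₁ : ∀ c, κ c ≠ ι b₁ := fun c hc => (Finset.mem_filter.1 hb₁).2 ⟨c, hc⟩
    have hkg : ∀ b, g b y = 0 → kg b ≠ 0 := by
      intro b hb h0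
      have h4 := (hge b).self_of_nhds
      rw [hb, h0, pow_zero, one_mul] at h4
      exact hug0 b h4.symm
    have hdξ : ∀ b v, dV (Cm n) (g b) y v = dV (Cm n) ξ y v (ι b) := by
      intro b v
      have h1 : g b = fun x => ξ x (ι b) := funext fun x => (hgξ b x).symm
      rw [X.dV_comp_i hyW0.2.1, ← h1]
    have hord : ∀ b, g b y = 0 → (∀ᶠ w in 𝓝 y, g b w = e w * ug b w) ∧
        dV (Cm n) (g b) y = ug b y • dV (Cm n) e y := by
      intro b hb
      obtain ⟨v, hv⟩ := surj_of_isUnit hyW0.2.2.1 (Pi.single (ι b) 1)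
      have h3 : dV (Cm n) (g b) y v = 1 := by rw [hdξ, hv, Pi.single_eq_same]
      have hkp : 0 < kg b := Nat.pos_of_ne_zero (hkg b hb)
      have h5 : dV (Cm n) (g b) y = dV (Cm n) (fun w => e w ^ kg b * ug b w) y :=
        Filter.EventuallyEq.mfderiv_eq (hge b)
      have h6 := dV_pow_mul he (hug b) hkp
      rw [he0] at h6
      have hk1 : kg b = 1 := by
        by_contra hne
        have h7 : kg b - 1 ≠ 0 := by omega
        rw [zero_pow h7, zero_smul] at h6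
        rw [h5, h6] at h3
        exact zero_ne_one h3
      constructor
      · filter_upwards [hge b] with w hw
        rw [hw, hk1, pow_one]
      · rw [h5, h6, hk1]
        simp
    have huniq : ∀ b, b ≠ b₁ → g b y ≠ 0 := by
      intro b hb h0
      obtain ⟨-, hd1⟩ := hord b h0
      obtain ⟨-, hd2⟩ := hord b₁ hb₁0
      obtain ⟨v, hv⟩ := surj_of_isUnit hyW0.2.2.1 (Pi.single (ι b) 1)
      have h1 : dV (Cm n) (g b) y v = 1 := by rw [hdξ, hv, Pi.single_eq_same]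
      have h2 : dV (Cm n) (g b₁) y v = 0 := by
        rw [hdξ, hv, Pi.single_eq_of_ne fun h => hb (hι h).symm]
      rw [hd1] at h1
      rw [hd2] at h2
      simp only [ContinuousLinearMap.smul_apply, smul_eq_mul] at h1 h2
      rcases mul_eq_zero.1 h2 with h3 | h3
      · exact hug0 b₁ h3
      · rw [h3, mul_zero] at h1
        exact zero_ne_one h1
    -- the good points near `y`
    have hnear : ∀ᶠ w in 𝓝 y, Den w ≠ 0 → Good w := by
      have h1 : ∀ᶠ w in 𝓝 y, ∀ b, g b w = e w ^ kg b * ug b w ∧ ug b w ≠ 0 :=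
        eventually_all.2 fun b => (hge b).and ((hug b).continuousAt.eventually_ne (hug0 b))
      have h2 : ∀ᶠ w in 𝓝 y, ∀ G ∈ 𝒢, e w ≠ 0 → gY G (f w) ≠ 0 := by
        rw [eventually_all_finite h𝒢f]
        intro G hG
        obtain ⟨kG, uG, h3, h4, h5⟩ := hbG G hG
        filter_upwards [h5, h3.continuousAt.eventually_ne h4] with w h6 h7 h8
        rw [h6]
        exact mul_ne_zero (pow_ne_zero _ h8) h7
      filter_upwards [h1, h2, hDe, hyW] with w h3 h4 h5 h6 h7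
      have h8 : e w ≠ 0 := fun h => h7 (h5.2 h)
      refine ⟨fun G hG hw => h4 G hG h8 ((h6.2 G hG).mem_iff.1 hw), fun b hw => ?_⟩
      have h9 := (h6.1.1 b).mem_iff.1 hw
      rw [(h3 b).1] at h9
      exact mul_ne_zero (pow_ne_zero _ h8) (h3 b).2 h9
    -- the bound for the minor
    obtain ⟨C₁, hC₁⟩ : ∃ C₁ : ℝ, ∀ᶠ w in 𝓝 y, Good w →
        ‖σ (f w)‖ * ‖(mK (dA n p f ξ w) κ).det‖ ^ m ≤ C₁ := by
      by_cases hcase : ∃ G ∈ 𝒢, f y ∈ G
      · obtain ⟨G, hG, hyG⟩ := hcase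
        obtain ⟨kG, uG, h3, h4, h5⟩ := hbG G hG
        have hkG : 0 < kG := by
          rcases Nat.eq_zero_or_pos kG with h0 | h0
          · exfalso
            have h6 := h5.self_of_nhds
            rw [(hyG0 G hG).mem_iff.1 hyG, h0, pow_zero, one_mul] at h6
            exact h4 h6.symm
          · exact h0
        obtain ⟨h6, -⟩ := hord b₁ hb₁0
        have h7 : HolV (Cm n) (fun w => uG w / ug b₁ w ^ kG) y :=
          HolV.div h3 ((hug b₁).pow kG) (pow_ne_zero _ (hug0 b₁))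
        have h8 : ∀ᶠ w in 𝓝 y, gY G (f w) = g b₁ w ^ kG * (uG w / ug b₁ w ^ kG) := by
          filter_upwards [h5, h6, (hug b₁).continuousAt.eventually_ne (hug0 b₁)] with w h9 h10 h11
          rw [h9, h10, mul_pow]
          have := pow_ne_zero kG h11
          field_simp
        have h9 := minor_le hf hyW0.2.1 hyW0.2.2.1 (hgξ b₁) hb₁0 (hyG0 G hG).holAt hkG h7
          (div_ne_zero h4 (pow_ne_zero _ (hug0 b₁))) h8 κ hκ₁
        obtain ⟨C₂, hC₂⟩ := minor_pow_le (A := dA n p f ξ) (s := fun w => σ (f w))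
          (P := fun w => Good w ∧ g b₁ w ≠ 0) (K := K b₁) (hyW0.1 b₁).holAt.continuousAt hb₁0 h9
          (fun w hw => hw.2) (hK b₁) (by
            intro L
            have hPh : HolV (Cm n) (fun w => ∏ b ∈ Finset.univ.erase b₁, g b w ^ K b) y :=
              HolV.prod fun b _ => (hyW0.1 b).holAt.pow _
            have hP0 : ∏ b ∈ Finset.univ.erase b₁, g b y ^ K b ≠ 0 :=
              Finset.prod_ne_zero_iff.2 fun b hb => pow_ne_zero _ (huniq b (Finset.ne_of_mem_erase hb))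
            have hPn : ∀ᶠ w in 𝓝 y, ‖∏ b ∈ Finset.univ.erase b₁, g b y ^ K b‖ / 2 <
                ‖∏ b ∈ Finset.univ.erase b₁, g b w ^ K b‖ :=
              hPh.continuousAt.norm.eventually_const_lt (half_lt_self (norm_pos_iff.2 hP0))
            have hpos : 0 < ‖∏ b ∈ Finset.univ.erase b₁, g b y ^ K b‖ / 2 := by
              have := norm_pos_iff.2 hP0
              positivity
            refine ⟨(‖a L y‖ + 1) / (‖∏ b ∈ Finset.univ.erase b₁, g b y ^ K b‖ / 2), ?_⟩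
            filter_upwards [hPn, hyW, bdd_of_cont (hyW0.2.2.2.1 L).continuousAt]
              with w h10 h11 h12 h13
            have h14 := h11.1.2.2.2.2 L h13.1
            rw [le_div_iff₀ hpos]
            refine le_trans (mul_le_mul_of_nonneg_left h10.le (by positivity)) ?_
            rw [← Finset.mul_prod_erase Finset.univ _ (Finset.mem_univ b₁)] at h14
            refine le_trans (le_of_eq ?_) h12
            rw [← h14, norm_mul, norm_mul, norm_mul, norm_pow, norm_pow]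
            ring)
        refine ⟨C₂, ?_⟩
        filter_upwards [hC₂, hyW] with w h10 h11 h12
        exact h10 ⟨h12, hgne w h11.1 h12.2 b₁⟩
      · push Not at hcase
        have h1 := H383.TD.holV_pull hf hσ (y := y) (fun G hG => ⟨gY G, hyG0 G (hk G hG),
          fun h0 => hcase G (hk G hG) ((hyG0 G (hk G hG)).mem_iff.2 h0)⟩) hyW0.2.1 hyW0.2.2.1
          (fun t => κ (finProdFinEquiv.symm t).2)
        refine ⟨‖σ (f y) * tT f m ξ (fun t => κ (finProdFinEquiv.symm t).2) y‖ + 1, ?_⟩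
        filter_upwards [bdd_of_cont h1.continuousAt] with w hw _
        rw [tT_const, norm_mul, norm_pow] at hw
        exact hw
    have hAc : ContinuousAt (fun w => ∏ b ∈ A, g b w ^ K b) y :=
      (HolV.prod fun b _ => (hyW0.1 b).holAt.pow _ :
        HolV (Cm n) (fun w => ∏ b ∈ A, g b w ^ K b) y).continuousAt
    refine ⟨|C₁| * (‖∏ b ∈ A, g b y ^ K b‖ + 1), ?_⟩
    filter_upwards [hC₁, hnear, hyW, bdd_of_cont hAc] with w h1 h2 h3 h4 h5
    have h6 := h2 h5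
    have h7 := h3.1.2.2.2.2 κ h6
    have h8 : ∏ b ∈ B, g b w ^ K b ≠ 0 := Finset.prod_ne_zero_iff.2 fun b hb =>
      pow_ne_zero _ (Finset.prod_ne_zero_iff.1 h5 b hb)
    have h9 : h w = σ (f w) * (mK (dA n p f ξ w) κ).det ^ m * ∏ b ∈ A, g b w ^ K b := by
      rw [hh]
      show a κ w / _ = _
      rw [← h7, hAB, div_eq_iff h8]
      ring
    rw [h9, norm_mul, norm_mul, norm_pow]
    exact mul_le_mul ((h1 h6).trans (le_abs_self _)) h4 (norm_nonneg _) (abs_nonneg _))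
  refine ⟨‖Q x₀‖ + 1, ?_⟩
  filter_upwards [hQe, hWev, bdd_of_cont hQ.continuousAt] with x h1 h2 h3 h4 h5
  have h6 : ∏ b ∈ B, g b x ≠ 0 := Finset.prod_ne_zero_iff.2 fun b _ => hgne x h2 h5 b
  have h7 := h1 h6
  have h8 := h2.2.2.2.2 κ ⟨h4, h5⟩
  have h9 : ∏ b ∈ B, g b x ^ K b ≠ 0 := Finset.prod_ne_zero_iff.2 fun b hb =>
    pow_ne_zero _ (Finset.prod_ne_zero_iff.1 h6 b hb)
  have h10 : h x = σ (f x) * (mK (dA n p f ξ x) κ).det ^ m * ∏ b ∈ A, g b x ^ K b := by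
    rw [hh]
    show a κ x / _ = _
    rw [← h8, hAB, div_eq_iff h9]
    ring
  have h11 : ‖σ (f x)‖ * ‖(mK (dA n p f ξ x) κ).det‖ ^ m * ∏ b ∈ A, ‖g b x‖ ^ K b = ‖Q x‖ := by
    rw [← h7, h10, norm_mul, norm_mul, norm_pow, norm_prod]
    simp only [norm_pow]
  rw [h11]
  exact h3

end Vale.Agent.P281.H303.R
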