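import Vale.Agent.P281.H303.R.Bdp
import Vale.Agent.P281.H713.CO.GExt
import Vale.Agent.P281.H303.X.Base

/-!
# P281 (helper303): pull-backs of orbifold tensors, the local extension
-/

open scoped Manifold ContDiff Topology
open Set Filter Metric Vale.Agent.P281 Vale.Agent.P272.K
open Vale.Agent.P281.MF Vale.Agent.P281.ISO Vale.Agent.P281.ELL Vale.Agent.P281.H713

set_option linter.all false

noncomputable section

namespace Vale.Agent.P281.H303.R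

open Vale.Agent.P281.H713.TZ Vale.Agent.P281.H713.SA Vale.Agent.P281.H713.CO
open Vale.Agent.P281.H498 (tT_coord PoleAt)

variable {n p : ℕ} {Z₁ Z Y : Type} [TopologicalSpace Z] [ChartedSpace (Cm n) Z]
  [IsManifold 𝓘(ℂ, Cm n) ω Z] [TopologicalSpace Z₁] [ChartedSpace (Cm n) Z₁]
  [IsManifold 𝓘(ℂ, Cm n) ω Z₁] [TopologicalSpace Y] [ChartedSpace (Cm p) Y]
  [IsManifold 𝓘(ℂ, Cm p) ω Y]

/-- the order of the equations of the poles, rounded down -/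
theorem pole_floor {y : Z} {Δ' : Set Z → ℝ} (hΔ' : J.IsSNC (Cm n) Δ') {m : ℕ} {K : Set Z → ℕ}
    (hK : ∀ D, K D = ⌊(m : ℝ) * Δ' D⌋₊) {T : Finset (Set Z)} (hT : ∀ D, Δ' D ≠ 0 → D ∈ T)
    {gT : Set Z → Z → ℂ} (hgT : ∀ D ∈ T, IsLocalEq (Cm n) D (gT D) y) {e : Z → ℂ}
    (he : HolV (Cm n) e y) (he0 : e y = 0)
    (hgen : ∀ D ∈ T, (∀ᶠ w in 𝓝 y, gT D w = 0) ∨ ∃ (k : ℕ) (u : Z → ℂ), HolV (Cm n) u y ∧
      u y ≠ 0 ∧ ∀ᶠ w in 𝓝 y, gT D w = e w ^ k * u w) :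
    ∃ C : ℝ, 0 ≤ C ∧ ∀ᶠ w in 𝓝 y, ‖∏ D ∈ T, gT D w ^ K D‖ ≤
      C * ‖e w‖ ^ ⌊(m : ℝ) * ∑ᶠ (D : Set Z) (_ : y ∈ D), Δ' D⌋₊ := by
  classical
  have hbd : ∀ T' : Finset (Set Z), T' ⊆ T → ∃ C : ℝ, 0 ≤ C ∧ ∀ᶠ w in 𝓝 y,
      ‖∏ D ∈ T', gT D w ^ K D‖ ≤ C := by
    intro T' hT'
    have h1 : HolV (Cm n) (fun w => ∏ D ∈ T', gT D w ^ K D) y :=
      HolV.prod fun D hD => HolV.pow (hgT D (hT' hD)).holAt _
    refine ⟨‖∏ D ∈ T', gT D y ^ K D‖ + 1, by positivity, ?_⟩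
    filter_upwards [h1.continuousAt.norm.eventually_lt_const
      (lt_add_one ‖∏ D ∈ T', gT D y ^ K D‖)] with w hw
    exact hw.le
  by_cases hex : ∃ D, Δ' D ≠ 0 ∧ y ∈ D
  · obtain ⟨D₁, hD₁, hyD₁⟩ := hex
    have hsur := hΔ'.2.2.2 y gT fun D hD hyD => hgT D (hT D hD)
    have hord : ∀ D, Δ' D ≠ 0 → y ∈ D → ∃ u : Z → ℂ, HolV (Cm n) u y ∧ u y ≠ 0 ∧
        (∀ᶠ w in 𝓝 y, gT D w = e w * u w) ∧ dV (Cm n) (gT D) y = u y • dV (Cm n) e y := by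
      intro D hD hyD
      have hDT := hT D hD
      obtain ⟨ξ, hξ⟩ := hsur fun D' => if D' = ⟨D, hD, hyD⟩ then 1 else 0
      have h1 : dif (Cm n) (gT D) y ξ = 1 := by
        have h2 := congrFun hξ ⟨D, hD, hyD⟩
        simp only [if_true] at h2
        exact h2
      have h3 : dV (Cm n) (gT D) y ξ = 1 := by rw [← dif_eq_dV]; exact h1
      rcases hgen D hDT with h4 | ⟨k, u, hu, hu0, hue⟩
      · exfalso
        have h5 : dV (Cm n) (gT D) y = dV (Cm n) (fun _ => (0 : ℂ)) y :=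
          Filter.EventuallyEq.mfderiv_eq h4
        have h6 : dV (Cm n) (fun _ : Z => (0 : ℂ)) y = 0 := mfderiv_const
        rw [h5, h6] at h3
        exact zero_ne_one h3
      · have hk : 0 < k := by
          rcases Nat.eq_zero_or_pos k with h0 | h0
          · exfalso
            have h4 := hue.self_of_nhds
            rw [(hgT D hDT).mem_iff.1 hyD, h0, pow_zero, one_mul] at h4
            exact hu0 h4.symm
          · exact h0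
        have h5 : dV (Cm n) (gT D) y = dV (Cm n) (fun w => e w ^ k * u w) y :=
          Filter.EventuallyEq.mfderiv_eq hue
        have h6 := dV_pow_mul he hu hk
        rw [he0] at h6
        have hk1 : k = 1 := by
          by_contra hne
          have h7 : k - 1 ≠ 0 := by omega
          rw [zero_pow h7, zero_smul] at h6
          rw [h5, h6] at h3
          exact zero_ne_one h3
        subst hk1
        refine ⟨u, hu, hu0, ?_, ?_⟩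
        · filter_upwards [hue] with w hw
          rw [hw, pow_one]
        · rw [h5, h6]
          simp
    have huniq : ∀ D, Δ' D ≠ 0 → y ∈ D → D = D₁ := by
      intro D hD hyD
      by_contra hne
      obtain ⟨u, hu, hu0, -, hud⟩ := hord D hD hyD
      obtain ⟨u₁, hu₁, hu₁0, -, hud₁⟩ := hord D₁ hD₁ hyD₁
      obtain ⟨ξ, hξ⟩ := hsur fun D' => if D' = ⟨D, hD, hyD⟩ then 1 else 0
      have h1 : dif (Cm n) (gT D) y ξ = 1 := by
        have h2 := congrFun hξ ⟨D, hD, hyD⟩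
        simp only [if_true] at h2
        exact h2
      have h2 : dif (Cm n) (gT D₁) y ξ = 0 := by
        have h2 := congrFun hξ ⟨D₁, hD₁, hyD₁⟩
        have h3 : (⟨D₁, hD₁, hyD₁⟩ : {D // Δ' D ≠ 0 ∧ y ∈ D}) ≠ ⟨D, hD, hyD⟩ := fun h =>
          hne (congrArg Subtype.val h).symm
        simp only [if_neg h3] at h2
        exact h2
      rw [dif_eq_dV, hud] at h1
      rw [dif_eq_dV, hud₁] at h2
      simp only [ContinuousLinearMap.smul_apply, smul_eq_mul] at h1 h2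
      rcases mul_eq_zero.1 h2 with h3 | h3
      · exact hu₁0 h3
      · rw [h3, mul_zero] at h1
        exact zero_ne_one h1
    obtain ⟨u, hu, hu0, hue, -⟩ := hord D₁ hD₁ hyD₁
    have hD₁T := hT D₁ hD₁
    have hsum : ∑ᶠ (D : Set Z) (_ : y ∈ D), Δ' D = Δ' D₁ := by
      rw [finsum_eq_single _ D₁]
      · exact finsum_eq_if.trans (if_pos hyD₁)
      · intro D hD
        rw [finsum_eq_if]
        by_cases hyD : y ∈ D
        · rw [if_pos hyD]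
          by_contra h0
          exact hD (huniq D h0 hyD)
        · rw [if_neg hyD]
    obtain ⟨C, hC0, hC⟩ := hbd (T.erase D₁) (Finset.erase_subset _ _)
    refine ⟨C * (‖u y‖ + 1) ^ K D₁, by positivity, ?_⟩
    rw [hsum, ← hK]
    filter_upwards [hC, hue, hu.continuousAt.norm.eventually_lt_const (lt_add_one ‖u y‖)]
      with w h1 h2 h3
    rw [← Finset.mul_prod_erase T _ hD₁T, norm_mul, h2, norm_pow, norm_mul, mul_pow]
    calc ‖e w‖ ^ K D₁ * ‖u w‖ ^ K D₁ * ‖∏ D ∈ T.erase D₁, gT D w ^ K D‖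
        ≤ ‖e w‖ ^ K D₁ * (‖u y‖ + 1) ^ K D₁ * C := by gcongr
      _ = C * (‖u y‖ + 1) ^ K D₁ * ‖e w‖ ^ K D₁ := by ring
  · push Not at hex
    have hsum : ∑ᶠ (D : Set Z) (_ : y ∈ D), Δ' D = 0 := by
      refine (finsum_congr fun D => ?_).trans finsum_zero
      rw [finsum_eq_if]
      by_cases hyD : y ∈ D
      · rw [if_pos hyD]
        by_contra h0
        exact hex D h0 hyD
      · rw [if_neg hyD]
    obtain ⟨C, hC0, hC⟩ := hbd T subset_rfl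
    refine ⟨C, hC0, ?_⟩
    filter_upwards [hC] with w hw
    rw [hsum, mul_zero, Nat.floor_zero, pow_zero, mul_one]
    exact hw

/-- the refined bound, at a point of `X` -/
theorem ref_at (hgen : GenPart) {f : Z → Y} (hf : ∀ x, HolM (Cm n) (Cm p) f x)
    {𝒢 : Set (Set Y)} (h𝒢f : 𝒢.Finite) (h𝒢p : ∀ G ∈ 𝒢, IsPrimeDivisor (Cm p) G)
    {m : ℕ} {k : Set Y → ℕ} (hk : ∀ G, k G ≠ 0 → G ∈ 𝒢) {σ : Y → ℂ}
    (hσ : IsSection (Cm p) (fun (D : Set Y) z g => IsLocalEq (Cm p) D g z) m k σ)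
    {Δ : Set Z → ℝ} (hΔ : J.IsSNC (Cm n) Δ) {K : Set Z → ℕ} (hK : ∀ D, (K D : ℝ) ≤ m * Δ D)
    (hd : Dense {x | (∀ G ∈ 𝒢, f x ∉ G) ∧ ∀ D, Δ D ≠ 0 → x ∉ D}) {x₁ : Z}
    {g' : Set Z → Z → ℂ} (hg' : ∀ D, Δ D ≠ 0 → IsLocalEq (Cm n) D (g' D) x₁) {c₀ : Z → Cm n}
    (hc₀ : HolV (Cm n) c₀ x₁) (hc₀u : IsUnit (dV (Cm n) c₀ x₁))
    (hQ : ∀ I : Fin (m * p) → Fin n, ∃ Q : Z → ℂ, HolV (Cm n) Q x₁ ∧ ∀ᶠ x in 𝓝 x₁,
      (∀ G ∈ 𝒢, f x ∉ G) → (∀ D, Δ D ≠ 0 → x ∉ D) →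
        σ (f x) * tT f m c₀ I x * ∏ D ∈ hΔ.1.toFinset, g' D x ^ K D = Q x)
    [Fintype {D // Δ D ≠ 0 ∧ x₁ ∈ D}] {ξ : Z → Cm n} {ι : {D // Δ D ≠ 0 ∧ x₁ ∈ D} → Fin n}
    (hξ : HolV (Cm n) ξ x₁) (hξu : IsUnit (dV (Cm n) ξ x₁)) (hι : Function.Injective ι)
    (hgξ : ∀ b x, ξ x (ι b) = g' b x) (κ : Fin p → Fin n) :
    ∃ C : ℝ, ∀ᶠ x in 𝓝 x₁,
      ((∀ G ∈ 𝒢, f x ∉ G) ∧ ∀ b : {D // Δ D ≠ 0 ∧ x₁ ∈ D}, x ∉ (b : Set Z)) →
      ‖σ (f x)‖ * ‖(mK (dA n p f ξ x) κ).det‖ ^ m *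
        ∏ b ∈ Finset.univ.filter (fun b => ∃ c, κ c = ι b), ‖g' b x‖ ^ K b ≤ C := by
  classical
  have hΔ1 : ∀ D, Δ D ≤ 1 := fun D => by
    obtain ⟨q, hq, -, h1⟩ := hΔ.2.2.1 D
    rw [hq]
    exact_mod_cast h1
  have hKm : ∀ D, K D ≤ m := fun D => by
    have h1 : (K D : ℝ) ≤ m := (hK D).trans (mul_le_of_le_one_right (Nat.cast_nonneg m) (hΔ1 D))
    exact_mod_cast h1
  have hKΔ : ∀ D, K D ≠ 0 → Δ D ≠ 0 := by
    intro D hD h0
    have h1 := hK D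
    rw [h0, mul_zero] at h1
    have h2 : (0 : ℝ) < K D := by exact_mod_cast Nat.pos_of_ne_zero hD
    linarith
  set T := hΔ.1.toFinset with hT
  have hTm : ∀ D, D ∈ T ↔ Δ D ≠ 0 := fun D => Set.Finite.mem_toFinset _
  set TA := T.filter fun D => x₁ ∈ D with hTA
  have hTAm : ∀ D, D ∈ TA ↔ (Δ D ≠ 0 ∧ x₁ ∈ D) := fun D => by
    rw [hTA, Finset.mem_filter, hTm]
  set V : Z → ℂ := fun x => ∏ D ∈ T.filter (fun D => ¬ x₁ ∈ D), g' D x ^ K D with hV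
  have hVh : HolV (Cm n) V x₁ := HolV.prod fun D hD =>
    (hg' D ((hTm D).1 (Finset.mem_filter.1 hD).1)).holAt.pow _
  have hV0 : V x₁ ≠ 0 := Finset.prod_ne_zero_iff.2 fun D hD => by
    obtain ⟨h1, h2⟩ := Finset.mem_filter.1 hD
    exact pow_ne_zero _ fun h3 => h2 ((hg' D ((hTm D).1 h1)).mem_iff.2 h3)
  have hprod : ∀ x, ∏ D ∈ T, g' D x ^ K D =
      (∏ b : {D // Δ D ≠ 0 ∧ x₁ ∈ D}, g' b x ^ K b) * V x := by
    intro x
    rw [← Finset.prod_filter_mul_prod_filter_not T (fun D => x₁ ∈ D),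
      ← Finset.prod_subtype TA hTAm fun D => g' D x ^ K D]
  have hoff : ∀ᶠ x in 𝓝 x₁, ∀ D ∈ {D | Δ D ≠ 0}, x₁ ∉ D → x ∉ D := by
    rw [eventually_all_finite hΔ.1]
    intro D hD
    by_cases h : x₁ ∈ D
    · exact Eventually.of_forall fun x h' => absurd h h'
    · filter_upwards [(hΔ.2.1 D hD).1.isOpen_compl.mem_nhds h] with x hx _
      exact hx
  choose Q hQh hQe using hQ
  obtain ⟨C, hC⟩ := refine hgen hf h𝒢f h𝒢p hk hσ (D := fun b : {D // Δ D ≠ 0 ∧ x₁ ∈ D} => (b : Set Z))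
    (g := fun b => g' b) (fun b => hg' b b.2.1) hξ hξu hι hgξ (K := fun b => K b)
    (fun b => hKm b) (hd.mono fun x hx => ⟨hx.1, fun b => hx.2 b b.2.1⟩) (by
      intro L
      refine ⟨fun x => (∑ L' : Fin (m * p) → Fin n, (∏ a, ((dV (Cm n) c₀ x).comp
        (Ring.inverse (dV (Cm n) ξ x))) (Pi.single (L (finProdFinEquiv.symm a).2) 1) (L' a)) *
          Q L' x) / V x, ?_, ?_⟩
      · refine HolV.div (HolV.sum fun L' _ => (HolV.prod fun a _ => ?_).mul (hQh L')) hVh hV0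
        exact X.holV_appi (holV_quot hc₀ hξ hξu) _ _
      · filter_upwards [eventually_all.2 hQe, hoff, hVh.continuousAt.eventually_ne hV0,
          unit_nhds hc₀ hc₀u] with x h1 h2 h3 h4 h5 h6
        have h7 : ∀ D, Δ D ≠ 0 → x ∉ D := by
          intro D hD
          by_cases hx : x₁ ∈ D
          · exact h6 ⟨D, hD, hx⟩
          · exact h2 D hD hx
        have h8 : σ (f x) * (mK (dA n p f ξ x) L).det ^ m *
            (∏ b : {D // Δ D ≠ 0 ∧ x₁ ∈ D}, g' b x ^ K b) * V x =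
            ∑ L' : Fin (m * p) → Fin n, (∏ a, ((dV (Cm n) c₀ x).comp
              (Ring.inverse (dV (Cm n) ξ x))) (Pi.single (L (finProdFinEquiv.symm a).2) 1)
                (L' a)) * Q L' x := by
          rw [← tT_const (f := f) (ξ := ξ) m L x, tT_coord m (c := ξ) (c' := c₀) h4.2.1,
            mul_assoc, ← hprod, Finset.mul_sum, Finset.sum_mul]
          refine Finset.sum_congr rfl fun L' _ => ?_
          rw [← h1 L' h5 h7]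
          ring
        rw [eq_div_iff h3, ← h8])
    κ
  refine ⟨C, ?_⟩
  filter_upwards [hC] with x hx h
  exact hx h.1 h.2

/-- **the pull-back of `f^* σ` by a morphism of orbifolds `u`** -/
theorem tens_pull [T2Space Z] (hgen : GenPart) {u : Z₁ → Z} (hu : ∀ z, HolM (Cm n) (Cm n) u z) {f : Z → Y}
    (hf : ∀ x, HolM (Cm n) (Cm p) f x) {𝒢 : Set (Set Y)} (h𝒢f : 𝒢.Finite)
    (h𝒢p : ∀ G ∈ 𝒢, IsPrimeDivisor (Cm p) G) {m : ℕ} (hm : 0 < m) {k : Set Y → ℕ}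
    (hk : ∀ G, k G ≠ 0 → G ∈ 𝒢) {σ : Y → ℂ}
    (hσ : IsSection (Cm p) (fun (D : Set Y) z g => IsLocalEq (Cm p) D g z) m k σ)
    {Δ : Set Z → ℝ} (hΔ : J.IsSNC (Cm n) Δ) {Δ₁ : Set Z₁ → ℝ} (hΔ₁ : J.IsSNC (Cm n) Δ₁)
    (hor : IsOrbMor (Cm n) (Cm n) u Δ₁ Δ) {K : Set Z → ℕ} (hK : ∀ D, (K D : ℝ) ≤ m * Δ D)
    (hd : Dense {x | (∀ G ∈ 𝒢, f x ∉ G) ∧ ∀ D, Δ D ≠ 0 → x ∉ D})
    (hd₁ : Dense {z | (∀ G ∈ 𝒢, f (u z) ∉ G) ∧ ∀ D, Δ D ≠ 0 → u z ∉ D})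
    (hpole : ∀ x, PoleAt n p m K 𝒢 (id : Z → Z) f σ x) {c : Z₁ → Cm n} {z₀ : Z₁}
    (hc : HolV (Cm n) c z₀) (hcu : IsUnit (dV (Cm n) c z₀)) (I : Fin (m * p) → Fin n)
    {gT : Set Z₁ → Z₁ → ℂ} (hgT : ∀ D ∈ hΔ₁.1.toFinset, IsLocalEq (Cm n) D (gT D) z₀) :
    ∃ Q : Z₁ → ℂ, HolV (Cm n) Q z₀ ∧ ∀ᶠ z in 𝓝 z₀, (∀ G ∈ 𝒢, f (u z) ∉ G) →
      σ (f (u z)) * tT (fun z => f (u z)) m c I z *
        ∏ D ∈ hΔ₁.1.toFinset, gT D z ^ ⌊(m : ℝ) * Δ₁ D⌋₊ = Q z := by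
  classical
  have hfu : ∀ z, HolM (Cm n) (Cm p) (fun z => f (u z)) z := fun z =>
    ContMDiffAt.comp z (hf (u z)) (hu z)
  have hΔ1 : ∀ D, Δ D ≤ 1 := fun D => by
    obtain ⟨q, hq, -, h1⟩ := hΔ.2.2.1 D
    rw [hq]
    exact_mod_cast h1
  have hΔ₁0 : ∀ D, 0 ≤ Δ₁ D := fun D => by
    obtain ⟨q, hq, h0, -⟩ := hΔ₁.2.2.1 D
    rw [hq]
    exact_mod_cast h0
  have hKΔ : ∀ D, K D ≠ 0 → Δ D ≠ 0 := by
    intro D hD h0
    have h1 := hK D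
    rw [h0, mul_zero] at h1
    have h2 : (0 : ℝ) < K D := by exact_mod_cast Nat.pos_of_ne_zero hD
    linarith
  set T₁ := hΔ₁.1.toFinset with hT₁
  have hT₁m : ∀ D, D ∈ T₁ ↔ Δ₁ D ≠ 0 := fun D => Set.Finite.mem_toFinset _
  set K₁ : Set Z₁ → ℕ := fun D => ⌊(m : ℝ) * Δ₁ D⌋₊ with hK₁
  -- the local equations of the poles
  have hchG : ∀ G, ∃ e : Y → ℂ, G ∈ 𝒢 → IsLocalEq (Cm p) G e (f (u z₀)) := by
    intro G
    by_cases hG : G ∈ 𝒢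
    · obtain ⟨e, he⟩ := (h𝒢p G hG).2.1 (f (u z₀))
      exact ⟨e, fun _ => he⟩
    · exact ⟨0, fun h => absurd h hG⟩
  choose gY hgY using hchG
  set h₀ : Z₁ → ℂ := fun z => σ (f (u z)) * tT (fun z => f (u z)) m c I z *
    ∏ D ∈ T₁, gT D z ^ K₁ D with hh₀
  set Den : Z₁ → ℂ := fun z => ∏ G ∈ h𝒢f.toFinset, gY G (f (u z)) with hDend
  set W : Z₁ → Prop := fun z => (∀ G ∈ 𝒢, IsLocalEq (Cm p) G (gY G) (f (u z))) ∧
    HolV (Cm n) c z ∧ IsUnit (dV (Cm n) c z) ∧ (∀ D ∈ T₁, IsLocalEq (Cm n) D (gT D) z) with hW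
  have hWev : ∀ᶠ z in 𝓝 z₀, W z := by
    have h1 : ∀ᶠ z in 𝓝 z₀, ∀ G ∈ 𝒢, IsLocalEq (Cm p) G (gY G) (f (u z)) := by
      rw [eventually_all_finite h𝒢f]
      intro G hG
      exact (hfu z₀).continuousAt.eventually (hgY G hG).eventually
    have h2 : ∀ᶠ z in 𝓝 z₀, ∀ D ∈ T₁, IsLocalEq (Cm n) D (gT D) z := by
      rw [Filter.eventually_all_finset]
      exact fun D hD => (hgT D hD).eventually
    filter_upwards [h1, h2, unit_nhds hc hcu] with z h3 h4 h5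
    exact ⟨h3, h5.1, h5.2.1, h4⟩
  have hWW : ∀ᶠ z in 𝓝 z₀, ∀ᶠ z' in 𝓝 z, W z' := eventually_eventually_nhds.2 hWev
  have hDen : ∀ z, W z → HolV (Cm n) Den z := fun z hz => HolV.prod fun G hG =>
    HolV.comp (E' := Cm p) (hz.1 G (h𝒢f.mem_toFinset.1 hG)).holAt (hfu z)
  have hDen0 : ∀ z, W z → (Den z ≠ 0 ↔ ∀ G ∈ 𝒢, f (u z) ∉ G) := by
    intro z hz
    rw [hDend, Finset.prod_ne_zero_iff]
    constructor
    · intro h G hG hzG
      exact h G (h𝒢f.mem_toFinset.2 hG) ((hz.1 G hG).mem_iff.1 hzG)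
    · intro h G hG h0
      exact h G (h𝒢f.mem_toFinset.1 hG) ((hz.1 G (h𝒢f.mem_toFinset.1 hG)).mem_iff.2 h0)
  have hDne : ∀ z, (∀ᶠ z' in 𝓝 z, W z') → ¬ ∀ᶠ z' in 𝓝 z, Den z' = 0 := by
    intro z hz hcon
    have h1 := mem_closure_iff_frequently.1 (hd₁ z)
    obtain ⟨z', h2, h3, h4⟩ := (h1.and_eventually (hz.and hcon)).exists
    exact (hDen0 z' h3).2 h2.1 h4
  have hhol : ∀ z, W z → Den z ≠ 0 → HolV (Cm n) h₀ z := by
    intro z hz hz0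
    refine (H383.TD.holV_pull hfu hσ (fun G hG => ⟨gY G, hz.1 G (hk G hG), fun h0 =>
      (hDen0 z hz).1 hz0 G (hk G hG) ((hz.1 G (hk G hG)).mem_iff.2 h0)⟩) hz.2.1 hz.2.2.1 I).mul
      (HolV.prod fun D hD => (hz.2.2.2 D hD).holAt.pow _)
  obtain ⟨Q, hQ, hQe⟩ := extendM_off (h := h₀) (hDen z₀ hWev.self_of_nhds) (hDne z₀ hWev) (by
    filter_upwards [hWev] with z hz hz0
    exact hhol z hz hz0) (by
    filter_upwards [hWW] with z hz hz0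
    rw [mem_closure_iff_nhds]
    intro t ht
    -- the local equations at `u z`
    set T := hΔ.1.toFinset with hT
    have hTm : ∀ D, D ∈ T ↔ Δ D ≠ 0 := fun D => Set.Finite.mem_toFinset _
    have hch : ∀ D, ∃ e : Z → ℂ, Δ D ≠ 0 → IsLocalEq (Cm n) D e (u z) := by
      intro D
      by_cases hD : Δ D = 0
      · exact ⟨0, fun h => absurd hD h⟩
      · obtain ⟨e, he⟩ := (hΔ.2.1 D hD).2.1 (u z)
        exact ⟨e, fun _ => he⟩
    choose g' hg' using hch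
    set c₀ : Z → Cm n := fun w => (chartAt (Cm n) (u z) : Z → Cm n) w with hc₀
    choose Q hQ hQe using fun I => H498.loc_of_pole (f := f) (σ := σ) H511.Gen.isBigOpen_id
      (hpole (u z)) (e := chartAt (Cm n) (u z)) ⟨chart_mem_atlas (Cm n) _, mem_chart_source _ _⟩
      (T := T) (g := g') (fun D hD => (hTm D).2 (hKΔ D hD)) (fun D hD => hg' D ((hTm D).1 hD)) I
    set W' : Z → Prop := fun x => (∀ D, Δ D ≠ 0 → IsLocalEq (Cm n) D (g' D) x) ∧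
      HolV (Cm n) c₀ x ∧ IsUnit (dV (Cm n) c₀ x) ∧ (∀ I, HolV (Cm n) (Q I) x) ∧
      ∀ I, (∀ G ∈ 𝒢, f x ∉ G) → (∀ D, Δ D ≠ 0 → x ∉ D) →
        σ (f x) * tT f m c₀ I x * ∏ D ∈ T, g' D x ^ K D = Q I x with hW'
    have hW'ev : ∀ᶠ x in 𝓝 (u z), W' x := by
      have h1 : ∀ᶠ x in 𝓝 (u z), ∀ D ∈ {D | Δ D ≠ 0}, IsLocalEq (Cm n) D (g' D) x := by
        rw [eventually_all_finite hΔ.1]
        exact fun D hD => (hg' D hD).eventually
      filter_upwards [h1, unit_nhds (HolV.chart (mem_chart_source (Cm n) (u z)))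
        (isUnit_dV_chart (E := Cm n) (mem_chart_source (Cm n) (u z))),
        eventually_all.2 fun I => (hQ I).eventually, eventually_all.2 hQe] with x h2 h3 h4 h5
      refine ⟨h2, h3.1, h3.2.1, h4, fun I hx hxD => ?_⟩
      refine h5 I x rfl ?_ fun D hD => hxD D (hKΔ D hD)
      rintro ⟨G, hG, hGx⟩
      exact hx G hG hGx
    haveI : Finite {G // G ∈ 𝒢} := h𝒢f.to_subtype
    obtain ⟨y, ⟨hyt, hyW⟩, hDy, e, he, he0, hde, hDe, hgen'⟩ := genM' hgen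
      (hDen z hz.self_of_nhds) (hDne z hz) hz0
      (ι := {G // G ∈ 𝒢} ⊕ ({D // D ∈ T₁} ⊕ {D // D ∈ T}))
      (b := Sum.elim (fun (G : {G // G ∈ 𝒢}) w => gY G (f (u w)))
        (Sum.elim (fun (D : {D // D ∈ T₁}) w => gT D w) (fun (D : {D // D ∈ T}) w => g' D (u w))))
      (by
        rintro (⟨G, hG⟩ | ⟨D, hD⟩ | ⟨D, hD⟩)
        · have h1 : HolV (Cm n) (fun w => gY G (f (u w))) z := HolV.comp (E' := Cm p)
            (hz.self_of_nhds.1 G hG).holAt (hfu z)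
          exact h1
        · exact (hz.self_of_nhds.2.2.2 D hD).holAt
        · have h1 : HolV (Cm n) (fun w => g' D (u w)) z := HolV.comp (E' := Cm n)
            (hg' D ((hTm D).1 hD)).holAt (hu z)
          exact h1)
      (U := t ∩ {y | (∀ᶠ z' in 𝓝 y, W z') ∧ ∀ᶠ x in 𝓝 (u y), W' x})
      (inter_mem ht ((eventually_eventually_nhds.2 hz).and ((hu z).continuousAt.eventually
        (eventually_eventually_nhds.2 hW'ev))))
    refine ⟨y, hyt, hDy, ?_⟩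
    have hyW1 : ∀ᶠ z' in 𝓝 y, W z' := hyW.1
    have hyW2 : ∀ᶠ x in 𝓝 (u y), W' x := hyW.2
    have hyW : ∀ᶠ z' in 𝓝 y, W z' ∧ W' (u z') :=
      hyW1.and ((hu y).continuousAt.eventually hyW2)
    have hyW0 : W y := hyW.self_of_nhds.1
    have hyW'0 : W' (u y) := hyW.self_of_nhds.2
    have hfreq := mem_closure_iff_frequently.1 (hd₁ y)
    -- the orders
    have hbG : ∀ G ∈ 𝒢, ∃ (k : ℕ) (v : Z₁ → ℂ), HolV (Cm n) v y ∧ v y ≠ 0 ∧
        ∀ᶠ w in 𝓝 y, gY G (f (u w)) = e w ^ k * v w := by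
      intro G hG
      rcases hgen' (Sum.inl ⟨G, hG⟩) with h1 | h1
      · exfalso
        obtain ⟨z', h2, h3, h4⟩ := (hfreq.and_eventually (hyW.and h1)).exists
        exact h2.1 G hG ((h3.1.1 G hG).mem_iff.2 h4)
      · exact h1
    have hbD : ∀ D, ∃ (k : ℕ) (v : Z₁ → ℂ), Δ D ≠ 0 → HolV (Cm n) v y ∧ v y ≠ 0 ∧
        ∀ᶠ w in 𝓝 y, g' D (u w) = e w ^ k * v w := by
      intro D
      by_cases hD : Δ D = 0
      · exact ⟨0, 0, fun h => absurd hD h⟩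
      rcases hgen' (Sum.inr (Sum.inr ⟨D, (hTm D).2 hD⟩)) with h1 | ⟨k, v, h1⟩
      · exfalso
        obtain ⟨z', h2, h3, h4⟩ := (hfreq.and_eventually (hyW.and h1)).exists
        exact h2.2 D hD ((h3.2.1 D hD).mem_iff.2 h4)
      · exact ⟨k, v, fun _ => h1⟩
    choose tD vD hvD using hbD
    haveI : Fintype {D // Δ D ≠ 0 ∧ u y ∈ D} := Fintype.ofFinset (T.filter fun D => u y ∈ D)
      fun D => by rw [Finset.mem_filter, hTm]; rfl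
    have htD : ∀ b : {D // Δ D ≠ 0 ∧ u y ∈ D}, 0 < tD b := by
      rintro ⟨D, hD, hyD⟩
      rcases Nat.eq_zero_or_pos (tD D) with h0 | h0
      · exfalso
        have h4 := (hvD D hD).2.2.self_of_nhds
        rw [(hyW'0.1 D hD).mem_iff.1 hyD, h0, pow_zero, one_mul] at h4
        exact (hvD D hD).2.1 h4.symm
      · exact h0
    have hsur := hΔ.2.2.2 (u y) g' fun D hD _ => hyW'0.1 D hD
    obtain ⟨ι, ξ, hι, hξ, hξu, hgξ⟩ := adapt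
      (g := fun b : {D // Δ D ≠ 0 ∧ u y ∈ D} => g' b) (fun b => (hyW'0.1 b b.2.1).holAt) hsur
    -- the numerical condition
    set δ : ℝ := ∑ᶠ (D : Set Z₁) (_ : y ∈ D), Δ₁ D with hδ
    have hδ0 : 0 ≤ δ := finsum_nonneg fun D => finsum_nonneg fun _ => hΔ₁0 D
    have hN : ∀ S : Finset {D // Δ D ≠ 0 ∧ u y ∈ D}, S.Nonempty →
        ∑ b ∈ S, tD b * K b ≤ m * (∑ b ∈ S, tD b - 1) + ⌊(m : ℝ) * δ⌋₊ := by
      intro S hS
      obtain ⟨b₀, hb₀⟩ := hS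
      have h1 : 1 - δ ≤ tD b₀ * (1 - Δ b₀) := by
        obtain ⟨h2, h3, h4⟩ := hvD b₀ b₀.2.1
        exact hor y b₀ (g' b₀) e (vD b₀) (tD b₀) b₀.2.1 (hyW'0.1 b₀ b₀.2.1) he he0 hde h2 h3
          (htD b₀) h4
      have h2 : tD b₀ * (1 - Δ b₀) ≤ ∑ b ∈ S, tD b * (1 - Δ b) :=
        Finset.single_le_sum (f := fun b : {D // Δ D ≠ 0 ∧ u y ∈ D} => (tD b : ℝ) * (1 - Δ b))
          (fun b _ => mul_nonneg (Nat.cast_nonneg _) (by linarith [hΔ1 b])) hb₀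
      have h3 : 1 ≤ ∑ b ∈ S, tD b := le_trans (htD b₀)
        (Finset.single_le_sum (f := fun b : {D // Δ D ≠ 0 ∧ u y ∈ D} => tD b)
          (fun b _ => Nat.zero_le _) hb₀)
      have h4 : ((∑ b ∈ S, tD b * K b : ℕ) : ℝ) ≤ (m * (∑ b ∈ S, tD b - 1) : ℕ) + m * δ := by
        push_cast [Nat.cast_sub h3]
        have h5 : ∑ b ∈ S, (tD b : ℝ) * (K b : ℝ) ≤ ∑ b ∈ S, (tD b : ℝ) * (m * Δ b) :=
          Finset.sum_le_sum fun b _ => mul_le_mul_of_nonneg_left (hK b) (Nat.cast_nonneg _)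
        have h6 : ∑ b ∈ S, (tD b : ℝ) * (m * Δ b) = m * ∑ b ∈ S, (tD b : ℝ) -
            m * ∑ b ∈ S, (tD b : ℝ) * (1 - Δ b) := by
          rw [Finset.mul_sum, Finset.mul_sum, ← Finset.sum_sub_distrib]
          refine Finset.sum_congr rfl fun b _ => ?_
          ring
        have h7 := mul_le_mul_of_nonneg_left (h1.trans h2) (Nat.cast_nonneg (α := ℝ) m)
        rw [h6] at h5
        linarith
      by_cases h5 : ∑ b ∈ S, tD b * K b ≤ m * (∑ b ∈ S, tD b - 1)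
      · exact h5.trans (Nat.le_add_right _ _)
      · have h6 : ∑ b ∈ S, tD b * K b - m * (∑ b ∈ S, tD b - 1) ≤ ⌊(m : ℝ) * δ⌋₊ := by
          refine Nat.le_floor ?_
          rw [Nat.cast_sub (by omega)]
          linarith
        omega
    -- the bounds
    obtain ⟨C, hC⟩ := bd_pull hu hf he he0 hde hξ hξu hι hgξ htD
      (w := fun b => vD b) (fun b => (hvD b b.2.1).1) (fun b => (hvD b b.2.1).2.1)
      (fun b => (hvD b b.2.1).2.2) (K := fun b => K b) hm hN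
      (P := fun x => (∀ G ∈ 𝒢, f x ∉ G) ∧ ∀ b : {D // Δ D ≠ 0 ∧ u y ∈ D}, x ∉ (b : Set Z))
      (s := fun x => σ (f x))
      (fun κ => ref_at hgen hf h𝒢f h𝒢p hk hσ hΔ hK hd hyW'0.1 hyW'0.2.1 hyW'0.2.2.1 (by
        intro I
        refine ⟨Q I, hyW'0.2.2.2.1 I, ?_⟩
        filter_upwards [hyW2] with x hx h2 h3
        exact hx.2.2.2.2 I h2 h3) hξ hξu hι hgξ κ)
      hyW0.2.1 hyW0.2.2.1 I
    obtain ⟨C', hC'0, hC'⟩ := pole_floor hΔ₁ (K := K₁) (fun D => rfl)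
      (fun D hD => (hT₁m D).2 hD) hyW0.2.2.2 he he0
      (fun D hD => hgen' (Sum.inr (Sum.inl ⟨D, hD⟩)))
    refine ⟨|C| * C', ?_⟩
    have hnear : ∀ᶠ w in 𝓝 y, Den w ≠ 0 → e w ≠ 0 ∧ (∀ G ∈ 𝒢, f (u w) ∉ G) ∧
        ∀ b : {D // Δ D ≠ 0 ∧ u y ∈ D}, u w ∉ (b : Set Z) := by
      have h1 : ∀ᶠ w in 𝓝 y, ∀ b : {D // Δ D ≠ 0 ∧ u y ∈ D},
          g' b (u w) = e w ^ tD b * vD b w ∧ vD b w ≠ 0 :=
        eventually_all.2 fun b => (hvD b b.2.1).2.2.and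
          ((hvD b b.2.1).1.continuousAt.eventually_ne (hvD b b.2.1).2.1)
      filter_upwards [h1, hDe, hyW] with w h2 h3 h4 h5
      have h6 : e w ≠ 0 := fun h => h5 (h3.2 h)
      refine ⟨h6, (hDen0 w h4.1).1 h5, fun b hb => ?_⟩
      have h7 := (h4.2.1 b b.2.1).mem_iff.1 hb
      rw [(h2 b).1] at h7
      exact mul_ne_zero (pow_ne_zero _ h6) (h2 b).2 h7
    filter_upwards [hC, hC', hnear] with w h1 h2 h3 h4
    obtain ⟨h5, h6⟩ := h3 h4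
    have h7 := h1 h5 h6
    rw [hh₀]
    show ‖σ (f (u w)) * tT (fun z => f (u z)) m c I w * ∏ D ∈ T₁, gT D w ^ K₁ D‖ ≤ |C| * C'
    rw [norm_mul, norm_mul]
    calc ‖σ (f (u w))‖ * ‖tT (fun z => f (u z)) m c I w‖ * ‖∏ D ∈ T₁, gT D w ^ K₁ D‖
        ≤ ‖σ (f (u w))‖ * ‖tT (fun z => f (u z)) m c I w‖ *
          (C' * ‖e w‖ ^ ⌊(m : ℝ) * δ⌋₊) := mul_le_mul_of_nonneg_left h2 (by positivity)
      _ = ‖σ (f (u w))‖ * ‖tT (fun z => f (u z)) m c I w‖ * ‖e w‖ ^ ⌊(m : ℝ) * δ⌋₊ * C' := by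
          ring
      _ ≤ |C| * C' := mul_le_mul_of_nonneg_right (h7.trans (le_abs_self _)) hC'0)
  refine ⟨Q, hQ, ?_⟩
  filter_upwards [hQe, hWev] with z h1 h2 h3
  exact h1 ((hDen0 z h2).2 h3)

end Vale.Agent.P281.H303.R
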